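import Vale.Agent.P013.Stages

/-! Jacobsthal's bound with a power saving when the modulus misses some middle primes. -/

open Finset

noncomputable section

namespace Vale.Agent.P013

/-- Jacobsthal's function: the least positive `m` such that any `m` consecutive integers contain
one coprime to `n`. -/
def jac (n : ℕ) : ℕ :=
  sInf {m : ℕ | 0 < m ∧ ∀ x : ℤ, ∃ i : ℕ, i < m ∧ IsCoprime (x + (i : ℤ)) (n : ℤ)}

lemma cnt_anti {m : ℤ} {X d : ℕ} {W W' : Finset ℕ} (h : W ⊆ W') :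
    (cnt m X d W' : ℝ) ≤ cnt m X d W := by
  unfold cnt
  exact_mod_cast card_le_card fun i hi => by
    simp only [mem_filter] at hi ⊢
    exact ⟨hi.1, hi.2.1, fun p hp => hi.2.2 p (h hp)⟩

lemma jac_le {n X : ℕ} (hn : 0 < n) (hX : 0 < X)
    (h : ∀ x : ℤ, (0 : ℝ) < cnt x X 1 n.primeFactors) : jac n ≤ X := by
  refine Nat.sInf_le ⟨hX, fun x => ?_⟩
  have hc : 0 < cnt x X 1 n.primeFactors := by exact_mod_cast h x
  obtain ⟨i, hi⟩ := card_pos.1 hc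
  simp only [mem_filter, mem_range] at hi
  refine ⟨i, hi.1, ?_⟩
  rw [Int.isCoprime_iff_gcd_eq_one]
  by_contra hg
  obtain ⟨p, hp, hpd⟩ := Nat.exists_prime_and_dvd hg
  have h1 : (p : ℤ) ∣ x + i := dvd_trans (Int.natCast_dvd_natCast.2 hpd) (Int.gcd_dvd_left _ _)
  have h2 : (p : ℤ) ∣ (n : ℤ) := dvd_trans (Int.natCast_dvd_natCast.2 hpd) (Int.gcd_dvd_right _ _)
  exact hi.2.2 p (Nat.mem_primeFactors.2 ⟨hp, Int.natCast_dvd_natCast.1 h2, hn.ne'⟩) h1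

lemma dens_lower : ∀ Q : Finset ℕ, (∀ p ∈ Q, Nat.Prime p) →
    1 / ((Q.card : ℝ) + 1) ≤ dens Q := by
  intro Q
  induction Q using Finset.induction_on_max with
  | empty => simp [dens]
  | insert a Q ha ih =>
    intro hp
    have hsub : Q ⊆ Ico 2 a := fun p hpQ =>
      mem_Ico.2 ⟨(hp p (mem_insert_of_mem hpQ)).two_le, ha p hpQ⟩
    have hc := card_le_card hsub
    rw [Nat.card_Ico] at hc
    have h2 := (hp a (mem_insert_self a Q)).two_le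
    have hna : a ∉ Q := fun h => lt_irrefl a (ha a h)
    rw [dens, prod_insert hna, ← dens, card_insert_of_notMem hna]
    have ha' : (Q.card : ℝ) + 2 ≤ a := by exact_mod_cast (by omega : Q.card + 2 ≤ a)
    have hi := ih fun p hpQ => hp p (mem_insert_of_mem hpQ)
    have h3 : 1 - 1 / ((Q.card : ℝ) + 2) ≤ 1 - 1 / (a : ℝ) :=
      sub_le_sub_left (one_div_le_one_div_of_le (by positivity) ha') 1
    refine le_trans (le_of_eq ?_) (mul_le_mul h3 hi (by positivity)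
      (inv_factor_pos (hp a (mem_insert_self a Q))).le)
    push_cast
    field_simp
    ring

lemma small_k (k : ℕ) (n : ℕ) (hn : 0 < n) (hk : n.primeFactors.card ≤ k) :
    jac n ≤ 2 ^ k * (k + 1) + 1 := by
  refine jac_le hn (by omega) fun x => ?_
  have hp : ∀ p ∈ n.primeFactors, Nat.Prime p := fun p h => Nat.prime_of_mem_primeFactors h
  have h := abs_le.1 (cnt_legendre (m := x) (X := 2 ^ k * (k + 1) + 1) n.primeFactors 1 one_pos hp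
    fun p _ => Nat.coprime_one_left p)
  have hd := dens_lower _ hp
  rw [Nat.cast_one, div_one] at h
  push_cast at h
  have h2 : (2 : ℝ) ^ n.primeFactors.card ≤ 2 ^ k := pow_le_pow_right₀ (by norm_num) hk
  have hk' : (n.primeFactors.card : ℝ) + 1 ≤ (k : ℝ) + 1 := by
    have : (n.primeFactors.card : ℝ) ≤ k := by exact_mod_cast hk
    linarith
  have h3 : 1 / ((k : ℝ) + 1) ≤ dens n.primeFactors :=
    le_trans (one_div_le_one_div_of_le (by positivity) hk') hd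
  rw [div_le_iff₀ (by positivity)] at h3
  nlinarith [dens_pos hp, pow_pos (two_pos : (0 : ℝ) < 2) k]

lemma exp_sum_inv_le {M : Finset ℕ} (hM : ∀ p ∈ M, Nat.Prime p) :
    Real.exp (∑ p ∈ M, 1 / (p : ℝ)) ≤ ∏ p ∈ M, (1 - 1 / (p : ℝ))⁻¹ := by
  rw [Real.exp_sum]
  refine prod_le_prod (fun p _ => (Real.exp_pos _).le) fun p hp => ?_
  rw [← inv_inv (Real.exp (1 / (p : ℝ))), ← Real.exp_neg]
  exact inv_anti₀ (inv_factor_pos (hM p hp)) (by linarith [Real.add_one_le_exp (-(1 / (p : ℝ)))])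

lemma prod_plus_le {M : Finset ℕ} (hM : ∀ p ∈ M, Nat.Prime p) :
    ∏ p ∈ M, (1 + 1 / (p : ℝ)) ≤ ∏ p ∈ M, (1 - 1 / (p : ℝ))⁻¹ := by
  refine prod_le_prod (fun p _ => by positivity) fun p hp => ?_
  rw [← one_div (1 - _), le_div_iff₀ (inv_factor_pos (hM p hp))]
  have : 0 ≤ 1 / (p : ℝ) * (1 / p) := by positivity
  nlinarith

/-- The parameters, fixed once `δ` and `ε` are given. -/
lemma params (δ ε : ℝ) (hδ : 0 < δ) (hε : 0 < ε) :
    ∃ (u0 σ N : ℕ) (γ c lam κ : ℝ), 2 ≤ u0 ∧ 4 / δ ≤ u0 ∧ 0 < c ∧ 0 < γ ∧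
      γ = (1 - Real.exp (-(ε / 2))) * c / 2 ∧
      (∀ N J : ℕ, 1 ≤ N → (2 * u0 + 4) * N ≤ J →
        ∀ i, 2 * i ≤ (2 + 2 * u0) * N → c ≤ gQ N J (2 * u0) i) ∧
      48 ≤ σ ∧ u0 + 1 ≤ σ ∧ 6 / (σ : ℝ) ≤ ε / 2 ∧ 1 / (σ : ℝ) ≤ δ / 2 ∧
      102400 / (σ : ℝ) ≤ γ ∧ 3 * Real.exp (40 - (σ : ℝ)) * (4 * (σ : ℝ) ^ 4) ≤ γ / 8 ∧
      12 ≤ N ∧ 1 < lam ∧ lam ≤ 1 + 1 / 100 ∧ lam ≤ 1 + 1 / (σ : ℝ) ∧
      5 / (N : ℝ) + 2 * (lam - 1) * (2 * (σ : ℝ) ^ 2 + 3) ^ 2 ≤ κ ∧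
      κ * (3 * (2 * (σ : ℝ) ^ 2 + 3) + 1) ^ (2 * σ ^ 2 + 1) ≤ γ / 8 := by
  obtain ⟨u0, hu0⟩ : ∃ u0 : ℕ, u0 = ⌈4 / δ⌉₊ + 2 := ⟨_, rfl⟩
  obtain ⟨c, hc0, hc⟩ := grid_pos (2 * u0)
  have hθ : 0 < 1 - Real.exp (-(ε / 2)) := by
    have : Real.exp (-(ε / 2)) < 1 := Real.exp_lt_one_iff.2 (by linarith)
    linarith
  obtain ⟨γ, hγ⟩ : ∃ γ, γ = (1 - Real.exp (-(ε / 2))) * c / 2 := ⟨_, rfl⟩
  have hγ0 : 0 < γ := hγ ▸ by positivity
  have hlim : Filter.Tendsto (fun σ : ℕ => 12 * Real.exp 40 * ((σ : ℝ) ^ 4 * Real.exp (-(σ : ℝ))))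
      Filter.atTop (nhds 0) := by
    have := ((Real.tendsto_pow_mul_exp_neg_atTop_nhds_zero 4).comp
      tendsto_natCast_atTop_atTop).const_mul (12 * Real.exp 40)
    simpa using this
  have h1 := hlim.eventually_le_const (by positivity : (0 : ℝ) < γ / 8)
  obtain ⟨σ, hσ1, hσ⟩ := (h1.and (Filter.eventually_ge_atTop
    (max (max 48 (u0 + 1)) (max ⌈12 / ε⌉₊ (max ⌈2 / δ⌉₊ ⌈102400 / γ⌉₊))))).exists
  simp only [max_le_iff, Nat.ceil_le] at hσ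
  obtain ⟨⟨h48, hu⟩, hse, hsd, hsg⟩ := hσ
  have hσ0 : (0 : ℝ) < σ := by exact_mod_cast (by omega : 0 < σ)
  obtain ⟨M, hM⟩ : ∃ M : ℝ, M = 2 * (σ : ℝ) ^ 2 + 3 := ⟨_, rfl⟩
  have hM0 : 0 < M := hM ▸ by positivity
  obtain ⟨κ, hκ⟩ : ∃ κ : ℝ, κ = γ / 8 / (3 * M + 1) ^ (2 * σ ^ 2 + 1) := ⟨_, rfl⟩
  have hκ0 : 0 < κ := hκ ▸ by positivity
  obtain ⟨N, hN⟩ : ∃ N : ℕ, N = max 12 ⌈10 / κ⌉₊ := ⟨_, rfl⟩
  obtain ⟨lam, hlam⟩ : ∃ lam : ℝ,
      lam = 1 + min (1 / 100) (min (1 / (σ : ℝ)) (κ / (4 * M ^ 2))) := ⟨_, rfl⟩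
  refine ⟨u0, σ, N, γ, c, lam, κ, by omega, ?_, hc0, hγ0, hγ, ?_, h48, hu, ?_, ?_, ?_, ?_, ?_,
    ?_, ?_, ?_, ?_, ?_⟩
  · rw [hu0]; push_cast; linarith [Nat.le_ceil (4 / δ)]
  · exact fun N J hN hJ i hi => (hc N J hN hJ (by omega) i hi).2
  · rw [div_le_iff₀ hσ0]; rw [div_le_iff₀ hε] at hse; linarith
  · rw [div_le_iff₀ hσ0]; rw [div_le_iff₀ hδ] at hsd; linarith
  · rw [div_le_iff₀ hσ0]; rw [div_le_iff₀ hγ0] at hsg; linarith
  · refine le_trans (le_of_eq ?_) hσ1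
    rw [sub_eq_add_neg, Real.exp_add]; ring
  · exact hN ▸ le_max_left _ _
  · rw [hlam]
    have : 0 < min (1 / 100 : ℝ) (min (1 / (σ : ℝ)) (κ / (4 * M ^ 2))) :=
      lt_min (by norm_num) (lt_min (by positivity) (by positivity))
    linarith
  · rw [hlam]; linarith [min_le_left (1 / 100 : ℝ) (min (1 / (σ : ℝ)) (κ / (4 * M ^ 2)))]
  · rw [hlam]
    linarith [min_le_right (1 / 100 : ℝ) (min (1 / (σ : ℝ)) (κ / (4 * M ^ 2))),
      min_le_left (1 / (σ : ℝ)) (κ / (4 * M ^ 2))]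
  · rw [← hM]
    have h2 : lam - 1 ≤ κ / (4 * M ^ 2) := by
      rw [hlam]
      linarith [min_le_right (1 / 100 : ℝ) (min (1 / (σ : ℝ)) (κ / (4 * M ^ 2))),
        min_le_right (1 / (σ : ℝ)) (κ / (4 * M ^ 2))]
    rw [le_div_iff₀ (by positivity)] at h2
    have h3 : 5 / (N : ℝ) ≤ κ / 2 := by
      have : 10 / κ ≤ (N : ℝ) :=
        (Nat.le_ceil _).trans (by exact_mod_cast (hN ▸ le_max_right 12 ⌈10 / κ⌉₊))
      rw [div_le_iff₀ hκ0] at this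
      rw [div_le_iff₀ (by exact_mod_cast (by omega : 0 < N))]
      linarith
    linarith
  · rw [← hM, hκ, div_mul_cancel₀ _ (by positivity)]

/-- Little of the mass of the missing primes lies above `z`. -/
lemma miss_below {z0 lam L ε σ z : ℝ} {k : ℕ} {Mall : Finset ℕ}
    (hall : ∀ x y : ℝ, z0 ≤ x → x ≤ y →
      ∏ p ∈ primesIn x y, (1 - 1 / (p : ℝ))⁻¹ ≤ lam * (Real.log y / Real.log x))
    (hσ : 48 ≤ σ) (hlam : lam ≤ 1 + 1 / σ) (hL : 0 < L) (hkL : (k : ℝ) = Real.exp L)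
    (hz : z = Real.exp ((1 - 2 / σ) * L)) (hz0z : z0 ≤ z)
    (hM : ∀ p ∈ Mall, Nat.Prime p ∧ p ≤ k) (hσε : 6 / σ ≤ ε / 2)
    (hmiss : ε ≤ ∑ p ∈ Mall, 1 / (p : ℝ)) :
    ε / 2 ≤ ∑ p ∈ Mall.filter (fun p : ℕ => (p : ℝ) ≤ z), 1 / (p : ℝ) := by
  have hσ0 : 0 < σ := by linarith
  obtain ⟨a, ha⟩ : ∃ a : ℝ, a = 2 / σ := ⟨_, rfl⟩
  have ha0 : 0 < a := ha ▸ by positivity
  have ha4 : a ≤ 1 / 4 := by rw [ha, div_le_iff₀ hσ0]; linarith
  rw [← ha] at hz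
  have hk0 : (0 : ℝ) ≤ k := Nat.cast_nonneg k
  have haL : a * L ≤ 1 / 4 * L := mul_le_mul_of_nonneg_right ha4 hL.le
  have hlz : 0 < (1 - a) * L := by linarith
  have hzk : z ≤ (k : ℝ) := by
    rw [hz, hkL]; exact Real.exp_le_exp.2 (by linarith [mul_pos ha0 hL])
  have hsub : Mall.filter (fun p : ℕ => ¬ (p : ℝ) ≤ z) ⊆ primesIn z (k : ℝ) := by
    intro p hp
    simp only [mem_filter, not_le] at hp
    rw [mem_primesIn hk0]
    exact ⟨(hM p hp.1).1, hp.2, by exact_mod_cast (hM p hp.1).2⟩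
  have h1 := sum_le_sum_of_subset_of_nonneg hsub (f := fun p : ℕ => 1 / (p : ℝ))
    fun p _ _ => by positivity
  have h2 : ∑ p ∈ primesIn z (k : ℝ), 1 / (p : ℝ) ≤ 6 / σ := by
    have h3 := (exp_sum_inv_le fun p hp => ((mem_primesIn hk0).1 hp).1).trans (hall z k hz0z hzk)
    rw [hkL, Real.log_exp, hz, Real.log_exp] at h3
    rw [← Real.exp_le_exp, show (6 : ℝ) / σ = 1 / σ + (5 / σ) by ring, Real.exp_add]
    rw [hkL, hz]
    refine h3.trans (mul_le_mul ?_ ?_ (div_nonneg hL.le hlz.le) (Real.exp_pos _).le)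
    · linarith [Real.add_one_le_exp (1 / σ)]
    · refine le_trans ?_ (Real.add_one_le_exp _)
      rw [div_le_iff₀ hlz, show (5 : ℝ) / σ = 5 / 2 * a by rw [ha]; ring]
      nlinarith [mul_le_mul_of_nonneg_left haL ha0.le]
  have h5 := sum_filter_add_sum_filter_not Mall (fun p : ℕ => (p : ℝ) ≤ z)
    (fun p : ℕ => 1 / (p : ℝ))
  linarith

/-- The missing primes save a constant factor. -/
lemma gain_le {z0 lam ε y' z : ℝ} {Qw Mz : Finset ℕ}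
    (hall : ∀ x y : ℝ, z0 ≤ x → x ≤ y →
      ∏ p ∈ primesIn x y, (1 - 1 / (p : ℝ))⁻¹ ≤ lam * (Real.log y / Real.log x))
    (hy : z0 ≤ y') (hyz : y' ≤ z) (hz : 0 ≤ z) (hQ : ∀ p ∈ Qw, Nat.Prime p)
    (hM : ∀ p ∈ Mz, Nat.Prime p ∧ y' < (p : ℝ) ∧ (p : ℝ) ≤ z ∧ p ∉ Qw)
    (hsum : ε / 2 ≤ ∑ p ∈ Mz, 1 / (p : ℝ)) :
    ∏ p ∈ Qw.filter (fun p : ℕ => y' < (p : ℝ) ∧ (p : ℝ) ≤ z), (1 - 1 / (p : ℝ))⁻¹ ≤
      lam * Real.exp (-(ε / 2)) * (Real.log z / Real.log y') := by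
  have hd : Disjoint (Qw.filter fun p : ℕ => y' < (p : ℝ) ∧ (p : ℝ) ≤ z) Mz := by
    rw [disjoint_left]
    exact fun p hp hp' => (hM p hp').2.2.2 (filter_subset _ _ hp)
  have h1 : (∏ p ∈ Qw.filter (fun p : ℕ => y' < (p : ℝ) ∧ (p : ℝ) ≤ z), (1 - 1 / (p : ℝ))⁻¹) *
      ∏ p ∈ Mz, (1 - 1 / (p : ℝ))⁻¹ ≤ lam * (Real.log z / Real.log y') := by
    rw [← prod_union hd]
    refine le_trans ?_ (hall y' z hy hyz)
    refine prod_le_prod_of_subset_of_one_le (fun p hp => ?_) (fun p hp => ?_)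
      fun p hp _ => one_le_inv_factor ((mem_primesIn hz).1 hp).1
    · rw [mem_primesIn hz]
      rcases mem_union.1 hp with h | h
      · exact ⟨hQ p (filter_subset _ _ h), (mem_filter.1 h).2⟩
      · exact ⟨(hM p h).1, (hM p h).2.1, (hM p h).2.2.1⟩
    · rcases mem_union.1 hp with h | h
      · exact inv_nonneg.2 (inv_factor_pos (hQ p (filter_subset _ _ h))).le
      · exact inv_nonneg.2 (inv_factor_pos (hM p h).1).le
  have h2 : Real.exp (ε / 2) ≤ ∏ p ∈ Mz, (1 - 1 / (p : ℝ))⁻¹ :=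
    (Real.exp_le_exp.2 hsum).trans (exp_sum_inv_le fun p hp => (hM p hp).1)
  have h3 : 0 ≤ ∏ p ∈ Qw.filter (fun p : ℕ => y' < (p : ℝ) ∧ (p : ℝ) ≤ z),
      (1 - 1 / (p : ℝ))⁻¹ := prod_nonneg fun p hp =>
    inv_nonneg.2 (inv_factor_pos (hQ p (filter_subset _ _ hp))).le
  have h4 := (mul_le_mul_of_nonneg_left h2 h3).trans h1
  rw [← le_div_iff₀ (Real.exp_pos _)] at h4
  refine h4.trans (le_of_eq ?_)
  rw [Real.exp_neg]
  ring

/-- The root of the window: the gain beats the perturbation. -/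
lemma win_root {u0 σ N : ℕ} {γ c lam κ ω M : ℝ} {J n : ℕ} (hu0 : 2 ≤ u0) (hσu : u0 + 1 ≤ σ)
    (hN : 12 ≤ N) (hlam1 : 1 ≤ lam) (hlam2 : lam ≤ 2) (hω1 : ω ≤ 1)
    (hM : M = 2 * (σ : ℝ) ^ 2 + 3) (hJ : J = (2 * σ ^ 2 + 2) * N) (hn : n = 2 * σ ^ 2)
    (hpos : ∀ N J : ℕ, 1 ≤ N → (2 * u0 + 4) * N ≤ J →
      ∀ i, 2 * i ≤ (2 + 2 * u0) * N → c ≤ gQ N J (2 * u0) i)
    (hγ : γ = (1 - ω) * c / 2)
    (hκ : 5 / (N : ℝ) + 2 * (lam - 1) * M ^ 2 ≤ κ)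
    (hκγ : κ * (3 * M + 1) ^ (n + 1) ≤ γ / 8) {φ : ℕ → ℝ}
    (hφ : φ = fun j => winB N J κ (3 * M) n (j - N)) (hanti : Antitone φ) (hφ0 : ∀ j, 0 ≤ φ j) :
    ∑ b ∈ Icc (2 * N) J, (φ b - if b < J then φ (b + 1) else 0) *
      (lam * (if u0 * N ≤ b then ω else 1) * (((b : ℝ) + 1) / ((2 * N : ℕ) : ℝ)) - 1) ≤
      1 - 7 / 8 * γ := by
  have hu0σ : u0 + 1 ≤ σ ^ 2 := hσu.trans (Nat.le_self_pow (by norm_num) σ)
  have hJ4 : 4 * N ≤ J := hJ ▸ Nat.mul_le_mul_right N (by omega)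
  have hN0 : (0 : ℝ) < N := by exact_mod_cast (by omega : 0 < N)
  have hJM : ((J + 1 : ℕ) : ℝ) / (N : ℝ) ≤ M := by
    rw [div_le_iff₀ hN0, hJ, hM]
    push_cast
    have : (1 : ℝ) ≤ N := by exact_mod_cast (by omega : 1 ≤ N)
    linarith
  have hM1 : 1 ≤ M := by rw [hM]; linarith [sq_nonneg (σ : ℝ)]
  have hA0J : u0 * N ≤ J := hJ ▸ Nat.mul_le_mul_right N (by omega)
  have h1 := root_bound hanti hφ0 hlam1 hω1 (by omega : 0 < 2 * N)
    (Nat.mul_le_mul_right N hu0 : 2 * N ≤ u0 * N) hA0J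
  have hκ0 : 0 ≤ κ := le_trans (add_nonneg (by positivity)
    (mul_nonneg (by linarith) (sq_nonneg M))) hκ
  have h2 := win_step (φ := gQ N J n) (n := n) (b := 2 * N) (i := 2 * N) (M := M) (K := 3 * M)
    hlam1 hlam2 hJM hM1 le_rfl (by omega) (by omega) le_rfl
    (grid_nonneg n).2 (fun j => (gQ_le (by omega) n j).trans hJM) hκ0
  have h3 := gridStep_le_one hN hJ4 n (2 * N)
  have h4 : (lam * ∑ b ∈ Icc (2 * N) J, φ b) / ((2 * N : ℕ) : ℝ) + (lam - 1) * φ (2 * N) ≤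
      1 + κ + 3 * M * (κ * (3 * M + 1) ^ n) := by
    rw [hφ]
    simp only [winB]
    linarith
  have h5 : κ + 3 * M * (κ * (3 * M + 1) ^ n) ≤ γ / 8 := by
    refine le_trans ?_ hκγ
    rw [pow_succ]
    have := mul_le_mul_of_nonneg_left (one_le_pow₀ (n := n) (by linarith : (1 : ℝ) ≤ 3 * M + 1))
      hκ0
    linarith
  have h6 : c * N ≤ ∑ b ∈ Icc (u0 * N) J, φ b := by
    have hu1 : (u0 + 1) * N ≤ J := hJ ▸ Nat.mul_le_mul_right N (by omega)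
    have hsub : Ico (u0 * N) ((u0 + 1) * N) ⊆ Icc (u0 * N) J := by
      intro b; simp only [mem_Ico, mem_Icc]
      omega
    refine le_trans ?_ (sum_le_sum_of_subset_of_nonneg hsub fun b _ _ => hφ0 b)
    have e : c * N = (Ico (u0 * N) ((u0 + 1) * N)).card • c := by
      rw [Nat.card_Ico, add_one_mul, Nat.add_sub_cancel_left, nsmul_eq_mul, mul_comm]
    rw [e]
    refine card_nsmul_le_sum _ _ _ fun b hb => ?_
    simp only [mem_Ico, add_one_mul] at hb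
    have hmono : Monotone fun l => gQ N J l (b - N) :=
      monotone_nat_of_le_succ fun l => (grid_mono l).2 _
    have hJu : (2 * u0 + 4) * N ≤ J := hJ ▸ Nat.mul_le_mul_right N (by omega)
    have h7 : c ≤ gQ N J (2 * u0) (b - N) := hpos N J (by omega) hJu _ (by
      have : (2 + 2 * u0) * N = 2 * N + 2 * (u0 * N) := by ring
      omega)
    rw [hφ]
    refine le_trans (h7.trans (hmono (by omega : 2 * u0 ≤ n))) ?_
    exact le_add_of_nonneg_right (mul_nonneg hκ0 (pow_nonneg (by linarith) n))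
  have h8 : γ ≤ (1 - ω) * (∑ b ∈ Icc (u0 * N) J, φ b) / ((2 * N : ℕ) : ℝ) := by
    rw [le_div_iff₀ (by exact_mod_cast (by omega : 0 < 2 * N)), hγ]
    have := mul_le_mul_of_nonneg_left h6 (by linarith : (0 : ℝ) ≤ 1 - ω)
    push_cast
    linarith
  linarith

/-- The lower sieve in the window `(w, z]` with level `z ^ 2`. -/
lemma window_lower {m : ℤ} {X : ℕ} {W Qw : Finset ℕ} {u0 σ N : ℕ} {w z v e r γ c lam κ ω : ℝ}
    (hu0 : 2 ≤ u0) (hσu : u0 + 1 ≤ σ) (hN : 12 ≤ N) (hlam1 : 1 ≤ lam) (hlam2 : lam ≤ 2)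
    (hω0 : 0 ≤ ω) (hω1 : ω ≤ 1)
    (hpos : ∀ N J : ℕ, 1 ≤ N → (2 * u0 + 4) * N ≤ J →
      ∀ i, 2 * i ≤ (2 + 2 * u0) * N → c ≤ gQ N J (2 * u0) i)
    (hγ : γ = (1 - ω) * c / 2)
    (hκ : 5 / (N : ℝ) + 2 * (lam - 1) * (2 * (σ : ℝ) ^ 2 + 3) ^ 2 ≤ κ)
    (hκγ : κ * (3 * (2 * (σ : ℝ) ^ 2 + 3) + 1) ^ (2 * σ ^ 2 + 1) ≤ γ / 8)
    (hQ : ∀ p ∈ Qw, Nat.Prime p) (hmem : ∀ p ∈ Qw, w < (p : ℝ) ∧ (p : ℝ) ≤ z)
    (hrat : RatioBound Qw w lam) (hw : 1 < w) (hwz : w < z)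
    (hzw : Real.log z ≤ (σ : ℝ) ^ 2 * Real.log w)
    (hgain : ∀ y' : ℝ, w ≤ y' → y' ≤ z →
      Real.log y' ≤ max (2 * Real.log z / u0) (Real.log w) →
      ∏ p ∈ Qw.filter (fun p : ℕ => y' < (p : ℝ) ∧ (p : ℝ) ≤ z), (1 - 1 / (p : ℝ))⁻¹ ≤
        lam * ω * (Real.log z / Real.log y'))
    (hbase : BaseAt m X W Qw v e r) (hv : 0 ≤ v) (he : 0 ≤ e) (hr : 0 ≤ r) :
    X * v * dens Qw * (7 / 8 * γ) - errSum e r (X * v) (z ^ 2) Qw ≤ cnt m X 1 (W ∪ Qw) := by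
  obtain ⟨M, hM⟩ : ∃ M : ℝ, M = 2 * (σ : ℝ) ^ 2 + 3 := ⟨_, rfl⟩
  obtain ⟨J, hJ⟩ : ∃ J : ℕ, J = (2 * σ ^ 2 + 2) * N := ⟨_, rfl⟩
  obtain ⟨n, hn⟩ : ∃ n : ℕ, n = 2 * σ ^ 2 := ⟨_, rfl⟩
  rw [← hM] at hκ hκγ
  rw [← hn] at hκγ
  have hlw : 0 < Real.log w := Real.log_pos hw
  have hlwz : Real.log w < Real.log z := Real.log_lt_log (by linarith) hwz
  have hD : Real.log (z ^ 2) = 2 * Real.log z := by rw [Real.log_pow]; norm_num
  have hN0 : (0 : ℝ) < N := by exact_mod_cast (by omega : 0 < N)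
  have hJ4 : 4 * N ≤ J := hJ ▸ Nat.mul_le_mul_right N (by
    have := Nat.le_self_pow (n := 2) (by norm_num) σ
    omega)
  have hJM : ((J + 1 : ℕ) : ℝ) / (N : ℝ) ≤ M := by
    rw [div_le_iff₀ hN0, hJ, hM]
    push_cast
    have : (1 : ℝ) ≤ N := by exact_mod_cast (by omega : 1 ≤ N)
    linarith
  have hM1 : 1 ≤ M := by rw [hM]; linarith [sq_nonneg (σ : ℝ)]
  have hC : Closed Qw w lam N 2 J (winA N J κ (3 * M)) (winB N J κ (3 * M)) :=
    win_closed hlam1 hlam2 hrat hQ hw (fun p hp => (hmem p hp).1) hN hJ4 hJM hM1 le_rfl hκ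
  have hs : State Qw w N J (n + 1) ∅ Qw (z ^ 2) (2 * N) :=
    { T_sub := empty_subset _
      Q_sub := Subset.rfl
      lt := fun p _ q hq => absurd hq (by simp)
      D_ge := one_le_pow₀ (by linarith)
      fuel := by
        rw [hD, hn]; push_cast
        linarith
      index := fun p hp => by
        rw [hD]; push_cast
        have h1 : Real.log (p : ℝ) ≤ Real.log z :=
          Real.log_le_log (by exact_mod_cast (hQ p hp).pos) (hmem p hp).2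
        linarith [mul_le_mul_of_nonneg_left h1 hN0.le]
      top := by
        rw [hD, hJ]; push_cast
        linarith [mul_le_mul_of_nonneg_left hzw hN0.le, mul_pos hN0 hlw] }
  have hD1 : 1 < z ^ 2 := one_lt_pow₀ (by linarith) (by norm_num)
  obtain ⟨φ, hφ⟩ : ∃ φ : ℕ → ℝ, φ = fun j => winB N J κ (3 * M) n (j - N) := ⟨_, rfl⟩
  have hanti : Antitone φ := hφ ▸ fun p q hpq => hC.B_anti n (Nat.sub_le_sub_right hpq N)
  have hφ0 : ∀ j, 0 ≤ φ j := hφ ▸ fun j => hC.B_nonneg n _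
  obtain ⟨R, hR⟩ : ∃ R, R = ∑ b ∈ Icc (2 * N) J, (φ b - if b < J then φ (b + 1) else 0) *
      (lam * (if u0 * N ≤ b then ω else 1) * (((b : ℝ) + 1) / ((2 * N : ℕ) : ℝ)) - 1) :=
    ⟨_, rfl⟩
  have hR1 : R ≤ 1 - 7 / 8 * γ :=
    hR ▸ win_root hu0 hσu hN hlam1 hlam2 hω1 hM hJ hn hpos hγ hκ hκγ hφ hanti hφ0
  have hlayer : ∑ p ∈ Qw, dens (below Qw p) / p * φ (idx N (z ^ 2) p) ≤ dens Qw * R := by
    rw [hR]
    refine layer_gen φ hanti hφ0 (2 * N) J Qw _ (idx N (z ^ 2))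
      (fun p hp => hs.idx_bounds hC hp) _ _ fun b hb => ?_
    simp only [mem_Icc] at hb
    split_ifs with hbu
    · refine weight_loc hC.prime hC.one_lt hC.above Subset.rfl hD1 (by omega) (by omega)
        (mul_nonneg (by linarith) hω0) (fun y' z' hwy hyz' hzi hly => ?_) (Or.inr ?_) hs.index
      · have hz'eq : z' = z := by
          have h : Real.log z' = Real.log z := by
            rw [hD] at hzi; push_cast at hzi
            exact mul_left_cancel₀ hN0.ne' (by linarith)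
          exact Real.log_injOn_pos (Set.mem_Ioi.2 (by linarith)) (Set.mem_Ioi.2 (by linarith)) h
        subst hz'eq
        refine hgain y' hwy hyz' ?_
        rw [hly, hD]
        refine max_le_max ?_ le_rfl
        have hb' : (u0 : ℝ) * N ≤ b := by exact_mod_cast hbu
        have hu : (2 : ℝ) ≤ u0 := by exact_mod_cast hu0
        rw [div_le_div_iff₀ (by positivity) (by linarith)]
        linarith [mul_le_mul_of_nonneg_right hb' (by linarith : (0 : ℝ) ≤ Real.log z')]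
      · rw [hD, max_lt_iff]
        have e1 : (N : ℝ) * (2 * Real.log z) / ((2 * N : ℕ) : ℝ) = Real.log z := by
          push_cast; field_simp
        rw [e1]
        refine ⟨?_, hlwz⟩
        rw [div_lt_iff₀ (by positivity)]
        have hb' : (2 : ℝ) * N ≤ b := by exact_mod_cast hb.1
        linarith [mul_le_mul_of_nonneg_right hb' (by linarith : (0 : ℝ) ≤ Real.log z)]
    · rw [mul_one]
      exact weight_le hC.ratio hC.lam_ge hC.prime hC.one_lt hC.above Subset.rfl hD1 (by omega)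
        (by omega) hb.1 hs.index
  have h := lower_step hbase hC hv ((sieve_bounds hbase hC hv he hr n).2) hs le_rfl R
    (by rw [hφ] at hlayer; exact hlayer)
  simp only [prod_empty, Nat.cast_one, div_one] at h
  have h4 : X * v * dens Qw * (7 / 8 * γ) ≤ X * v * dens Qw * (1 - R) :=
    mul_le_mul_of_nonneg_left (by linarith)
      (mul_nonneg (mul_nonneg (Nat.cast_nonneg X) hv) (dens_pos hQ).le)
  linarith

/-- The primes above `z` have small total mass. -/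
lemma big_sum_le {z0 lam L σ z : ℝ} {big : Finset ℕ}
    (hall : ∀ x y : ℝ, z0 ≤ x → x ≤ y →
      ∏ p ∈ primesIn x y, (1 - 1 / (p : ℝ))⁻¹ ≤ lam * (Real.log y / Real.log x))
    (hσ : 48 ≤ σ) (hlam : lam ≤ 1 + 1 / σ) (hσL : σ ^ 2 ≤ L)
    (hz : z = Real.exp ((1 - 2 / σ) * L)) (hz0z : z0 ≤ z) (hp : ∀ p ∈ big, Nat.Prime p)
    (habove : ∀ p ∈ big, z < (p : ℝ)) (hcard : (big.card : ℝ) ≤ Real.exp L) :
    ∑ p ∈ big, 1 / (p : ℝ) ≤ 10 / σ := by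
  have hσ0 : 0 < σ := by linarith
  have hL : 0 < L := lt_of_lt_of_le (pow_pos hσ0 2) hσL
  obtain ⟨a, ha⟩ : ∃ a : ℝ, a = 2 / σ := ⟨_, rfl⟩
  have ha0 : 0 < a := ha ▸ by positivity
  have ha4 : a ≤ 1 / 4 := by rw [ha, div_le_iff₀ hσ0]; linarith
  rw [← ha] at hz
  have haL : a * L ≤ 1 / 4 * L := mul_le_mul_of_nonneg_right ha4 hL.le
  have haL0 : 0 < a * L := mul_pos ha0 hL
  have hlz : 0 < (1 - a) * L := by linarith
  obtain ⟨Z, hZ⟩ : ∃ Z : ℝ, Z = Real.exp ((1 + a) * L) := ⟨_, rfl⟩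
  have hZ0 : 0 < Z := hZ ▸ Real.exp_pos _
  have hzZ : z ≤ Z := by rw [hz, hZ]; exact Real.exp_le_exp.2 (by linarith)
  rw [← sum_filter_add_sum_filter_not big (fun p : ℕ => (p : ℝ) ≤ Z)]
  have h1 : ∑ p ∈ big.filter (fun p : ℕ => (p : ℝ) ≤ Z), 1 / (p : ℝ) ≤ 9 / σ := by
    refine (sum_le_sum_of_subset_of_nonneg (t := primesIn z Z) (fun p hp' => ?_)
      fun p _ _ => by positivity).trans ?_
    · simp only [mem_filter] at hp'
      rw [mem_primesIn hZ0.le]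
      exact ⟨hp p hp'.1, habove p hp'.1, hp'.2⟩
    · have h3 := (exp_sum_inv_le fun p hp' => ((mem_primesIn hZ0.le).1 hp').1).trans
        (hall z Z hz0z hzZ)
      rw [← Real.exp_le_exp, show (9 : ℝ) / σ = 1 / σ + 8 / σ by ring, Real.exp_add]
      refine h3.trans ?_
      rw [hz, hZ, Real.log_exp, Real.log_exp]
      refine mul_le_mul ?_ ?_ (div_nonneg (by linarith) hlz.le) (Real.exp_pos _).le
      · linarith [Real.add_one_le_exp (1 / σ)]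
      · refine le_trans ?_ (Real.add_one_le_exp _)
        rw [div_le_iff₀ hlz, show (8 : ℝ) / σ = 4 * a by rw [ha]; ring]
        linarith [mul_le_mul_of_nonneg_left haL ha0.le]
  have h2 : ∑ p ∈ big.filter (fun p : ℕ => ¬ (p : ℝ) ≤ Z), 1 / (p : ℝ) ≤ 1 / σ := by
    refine (sum_le_card_nsmul _ _ (1 / Z) fun p hp' => ?_).trans ?_
    · simp only [mem_filter, not_le] at hp'
      exact one_div_le_one_div_of_le hZ0 hp'.2.le
    · rw [nsmul_eq_mul]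
      have hc : ((big.filter fun p : ℕ => ¬ (p : ℝ) ≤ Z).card : ℝ) ≤ Real.exp L :=
        le_trans (by exact_mod_cast card_le_card (filter_subset _ _)) hcard
      refine (mul_le_mul_of_nonneg_right hc (by positivity)).trans ?_
      rw [hZ, mul_one_div, ← Real.exp_sub]
      calc Real.exp (L - (1 + a) * L) = (Real.exp (a * L))⁻¹ := by
            rw [← Real.exp_neg]; congr 1; ring
        _ ≤ σ⁻¹ := by
            refine inv_anti₀ hσ0 ?_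
            have := Real.add_one_le_exp (a * L)
            have : σ ≤ a * L := by
              rw [ha, div_mul_eq_mul_div, le_div_iff₀ hσ0]
              linarith
            linarith
        _ = 1 / σ := (one_div _).symm
  have : (9 : ℝ) / σ + 1 / σ = 10 / σ := by ring
  linarith

/-- The main term beats the remainders for large `k`. -/
lemma gap_num {R0 z0 L σ γ V X : ℝ} (hR0 : 0 < R0) (hz0 : 0 < z0) (hσ : 0 < σ) (hγ : 0 < γ)
    (hL : 0 < L) (hV : 0 < V) (hbig : 16 * R0 * (z0 + 3) * σ ^ 2 / γ ≤ L)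
    (hXL : Real.exp ((2 - 1 / σ) * L) ≤ X) (hVlow : 1 ≤ V * ((z0 + 3) * (2 * L))) :
    2 * (R0 * Real.exp ((2 - 3 / σ) * L)) < X * V * (γ / 2) := by
  have h1 : Real.exp ((2 - 1 / σ) * L) =
      Real.exp ((2 - 3 / σ) * L) * Real.exp (2 * L / σ) := by
    rw [← Real.exp_add]; congr 1; ring
  have hnn : 0 ≤ 2 * L / σ := by positivity
  have hq : (2 * L / σ) ^ 2 / 2 < Real.exp (2 * L / σ) := by
    linarith [Real.quadratic_le_exp_of_nonneg hnn]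
  obtain ⟨E, hE⟩ : ∃ E, E = Real.exp ((2 - 3 / σ) * L) := ⟨_, rfl⟩
  have hEpos : 0 < E := hE ▸ Real.exp_pos _
  rw [← hE] at h1 ⊢
  have h2 : E * ((2 * L / σ) ^ 2 / 2) < X := lt_of_lt_of_le
    (mul_lt_mul_of_pos_left hq hEpos) (h1 ▸ hXL)
  have hnum : 2 * R0 * ((z0 + 3) * (2 * L)) ≤ γ / 2 * ((2 * L / σ) ^ 2 / 2) := by
    rw [div_le_iff₀ hγ] at hbig
    rw [show γ / 2 * ((2 * L / σ) ^ 2 / 2) = γ * L * L / σ ^ 2 by ring,
      le_div_iff₀ (by positivity)]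
    have : 0 ≤ R0 * (z0 + 3) * L * σ ^ 2 := by positivity
    linarith [mul_le_mul_of_nonneg_right hbig hL.le]
  calc 2 * (R0 * E) = 2 * R0 * E * 1 := by ring
    _ ≤ 2 * R0 * E * (V * ((z0 + 3) * (2 * L))) :=
        mul_le_mul_of_nonneg_left hVlow (by positivity)
    _ = E * (2 * R0 * ((z0 + 3) * (2 * L))) * V := by ring
    _ ≤ E * (γ / 2 * ((2 * L / σ) ^ 2 / 2)) * V :=
        mul_le_mul_of_nonneg_right (mul_le_mul_of_nonneg_left hnum hEpos.le) hV.le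
    _ = E * ((2 * L / σ) ^ 2 / 2) * (V * (γ / 2)) := by ring
    _ < X * (V * (γ / 2)) := mul_lt_mul_of_pos_right h2 (by positivity)
    _ = X * V * (γ / 2) := by ring

/-- The members of `P` in `(a, b]`. -/
def midP (P : Finset ℕ) (a b : ℝ) : Finset ℕ :=
  P.filter fun p : ℕ => a < (p : ℝ) ∧ (p : ℝ) ≤ b

lemma mem_midP {P : Finset ℕ} {a b : ℝ} {p : ℕ} :
    p ∈ midP P a b ↔ p ∈ P ∧ a < (p : ℝ) ∧ (p : ℝ) ≤ b := by
  simp only [midP, mem_filter]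

lemma dens_mid {P : Finset ℕ} {a b c : ℝ} (hab : a ≤ b) (hbc : b ≤ c) :
    dens (midP P a c) = dens (midP P a b) * dens (midP P b c) := by
  unfold dens
  rw [← prod_union]
  · congr 1
    ext p
    simp only [mem_union, mem_midP]
    constructor
    · rintro ⟨h1, h2, h3⟩
      rcases le_or_gt (p : ℝ) b with h | h
      · exact Or.inl ⟨h1, h2, h⟩
      · exact Or.inr ⟨h1, h, h3⟩
    · rintro (⟨h1, h2, h3⟩ | ⟨h1, h2, h3⟩)
      · exact ⟨h1, h2, h3.trans hbc⟩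
      · exact ⟨h1, lt_of_le_of_lt hab h2, h3⟩
  · rw [disjoint_left]
    intro p hp hp'
    exact not_lt.2 (mem_midP.1 hp).2.2 (mem_midP.1 hp').2.1

/-- The cuts `w = exp (L/σ²)`, `z = exp ((1 - 2/σ) L)` and `y = exp (L/80)` are in order. -/
lemma scales {σ z0 L : ℝ} (hσ : 48 ≤ σ) (hz0 : 4 ≤ z0) (h2 : σ ^ 2 * z0 ≤ L) :
    z0 ≤ Real.exp (L / σ ^ 2) ∧ Real.exp (L / σ ^ 2) < Real.exp ((1 - 2 / σ) * L) ∧
      z0 ≤ Real.exp (L / 80) ∧ Real.exp (L / 80) ≤ Real.exp ((1 - 2 / σ) * L) ∧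
      3 / 4 * L ≤ (1 - 2 / σ) * L ∧ (1 - 2 / σ) * L ≤ L ∧ 1 ≤ Real.log z0 ∧ 0 < L := by
  have hσ0 : 0 < σ := by linarith
  have hz00 : 0 ≤ z0 := by linarith
  have hσ2 : (48 : ℝ) ^ 2 ≤ σ ^ 2 := pow_le_pow_left₀ (by norm_num) hσ 2
  have hL80 : 80 * z0 ≤ L :=
    le_trans (mul_le_mul_of_nonneg_right (by linarith) hz00) h2
  have hL : 0 < L := by linarith
  have h4 : 2 / σ ≤ 1 / 4 := by rw [div_le_iff₀ hσ0]; linarith
  have hs : 0 < 2 / σ := by positivity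
  have h5 := mul_le_mul_of_nonneg_right h4 hL.le
  have h6 := mul_pos hs hL
  have hlw : z0 ≤ L / σ ^ 2 := by rw [le_div_iff₀ (pow_pos hσ0 2)]; linarith
  have hlw2 : L / σ ^ 2 ≤ L / 2 := div_le_div_of_nonneg_left hL.le (by norm_num) (by linarith)
  refine ⟨?_, Real.exp_lt_exp.2 (by linarith), ?_, Real.exp_le_exp.2 (by linarith), by linarith,
    by linarith, ?_, hL⟩
  · linarith [Real.add_one_le_exp (L / σ ^ 2)]
  · linarith [Real.add_one_le_exp (L / 80)]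
  · rw [← Real.log_exp 1]
    exact Real.log_le_log (Real.exp_pos 1) (by linarith [Real.exp_one_lt_d9])

/-- The members of `P` up to `z`, sifted with a gain from the missing primes. -/
lemma window_part {u0 σ N k : ℕ} {γ c lam κ δ ε z0 R0 L w z : ℝ} {X : ℕ} {m : ℤ}
    {P W0 Mall : Finset ℕ}
    (hu0 : 2 ≤ u0) (hu0δ : 4 / δ ≤ u0) (hσ48 : 48 ≤ σ) (hσu : u0 + 1 ≤ σ)
    (hσδ : 1 / (σ : ℝ) ≤ δ / 2) (hσε : 6 / (σ : ℝ) ≤ ε / 2)
    (hσe : 3 * Real.exp (40 - (σ : ℝ)) * (4 * (σ : ℝ) ^ 4) ≤ γ / 8) (hN : 12 ≤ N)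
    (hlam1 : 1 < lam) (hlam100 : lam ≤ 1 + 1 / 100) (hlamσ : lam ≤ 1 + 1 / (σ : ℝ))
    (hδ : 0 < δ) (hε : 0 < ε)
    (hpos : ∀ N J : ℕ, 1 ≤ N → (2 * u0 + 4) * N ≤ J →
      ∀ i, 2 * i ≤ (2 + 2 * u0) * N → c ≤ gQ N J (2 * u0) i)
    (hγ : γ = (1 - Real.exp (-(ε / 2))) * c / 2)
    (hκ : 5 / (N : ℝ) + 2 * (lam - 1) * (2 * (σ : ℝ) ^ 2 + 3) ^ 2 ≤ κ)
    (hκγ : κ * (3 * (2 * (σ : ℝ) ^ 2 + 3) + 1) ^ (2 * σ ^ 2 + 1) ≤ γ / 8)
    (hz04 : 4 ≤ z0) (hall : ∀ x y : ℝ, z0 ≤ x → x ≤ y →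
      ∏ p ∈ primesIn x y, (1 - 1 / (p : ℝ))⁻¹ ≤ lam * (Real.log y / Real.log x))
    (hL2 : (σ : ℝ) ^ 2 * z0 ≤ L) (hkL : (k : ℝ) = Real.exp L)
    (hw : w = Real.exp (L / (σ : ℝ) ^ 2)) (hz : z = Real.exp ((1 - 2 / (σ : ℝ)) * L))
    (hP : ∀ p ∈ P, Nat.Prime p) (hW0 : W0 = P.filter fun p : ℕ => (p : ℝ) ≤ z0)
    (hRW : (2 : ℝ) ^ W0.card ≤ R0)
    (hMall : Mall = (range (k + 1)).filter
      (fun p : ℕ => p.Prime ∧ (k : ℝ) ^ δ ≤ (p : ℝ) ∧ p ∉ P))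
    (hmiss : ε ≤ ∑ p ∈ Mall, 1 / (p : ℝ)) :
    X * (dens W0 * dens (midP P z0 z)) * (3 / 4 * γ) -
        R0 * Real.exp ((2 - 3 / (σ : ℝ)) * L) ≤
      cnt m X 1 (W0 ∪ midP P z0 w ∪ midP P w z) := by
  have hσ' : (48 : ℝ) ≤ σ := by exact_mod_cast hσ48
  have hσ0 : (0 : ℝ) < σ := by linarith
  obtain ⟨hz0w, hwz, -, -, hlz1, hlz2, -, hL⟩ := scales hσ' hz04 hL2
  rw [← hw] at hz0w hwz
  rw [← hz] at hwz
  have hlogw : Real.log w = L / (σ : ℝ) ^ 2 := by rw [hw, Real.log_exp]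
  have hlogz : Real.log z = (1 - 2 / (σ : ℝ)) * L := by rw [hz, Real.log_exp]
  have hz0z : z0 ≤ z := hz0w.trans hwz.le
  have hMz := miss_below hall hσ' hlamσ hL hkL hz hz0z
    (fun p hp => by
      simp only [hMall, mem_filter, mem_range] at hp
      exact ⟨hp.2.1, Nat.lt_succ_iff.1 hp.1⟩) hσε hmiss
  obtain ⟨ω, hω⟩ : ∃ ω, ω = Real.exp (-(ε / 2)) := ⟨_, rfl⟩
  have hω1 : ω ≤ 1 := hω ▸ Real.exp_le_one_iff.2 (by linarith)
  have hω0 : 0 ≤ ω := hω ▸ (Real.exp_pos _).le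
  rw [← hω] at hγ
  have hQ : ∀ p ∈ midP P w z, Nat.Prime p := fun p hp => hP p (mem_midP.1 hp).1
  have hlam2 : lam ≤ 2 := by linarith
  have hgain : ∀ y' : ℝ, w ≤ y' → y' ≤ z →
      Real.log y' ≤ max (2 * Real.log z / u0) (Real.log w) →
      ∏ p ∈ (midP P w z).filter (fun p : ℕ => y' < (p : ℝ) ∧ (p : ℝ) ≤ z),
        (1 - 1 / (p : ℝ))⁻¹ ≤ lam * ω * (Real.log z / Real.log y') := by
    intro y' hwy hyz' hly
    rw [hω]
    refine gain_le hall (hz0w.trans hwy) hyz' (by linarith) hQ (fun p hp => ?_) hMz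
    simp only [hMall, mem_filter] at hp
    refine ⟨hp.1.2.1, lt_of_lt_of_le ?_ hp.1.2.2.1, hp.2,
      fun h => hp.1.2.2.2 (mem_midP.1 h).1⟩
    have hy'pos : 0 < y' := by linarith
    rw [hkL, ← Real.exp_mul, ← Real.exp_log hy'pos]
    refine Real.exp_lt_exp.2 (lt_of_le_of_lt (hly.trans (max_le ?_ ?_))
      (by linarith [mul_pos hδ hL] : δ / 2 * L < L * δ))
    · rw [hlogz, div_le_iff₀ (by exact_mod_cast (by omega : 0 < u0))]
      rw [div_le_iff₀ hδ] at hu0δ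
      linarith [mul_le_mul_of_nonneg_left hu0δ hL.le]
    · rw [hlogw]
      calc L / (σ : ℝ) ^ 2 = L * (1 / σ * (1 / σ)) := by ring
        _ ≤ L * (δ / 2 * 1) := by
            refine mul_le_mul_of_nonneg_left ?_ hL.le
            exact mul_le_mul hσδ ((div_le_one hσ0).2 (by linarith)) (by positivity) (by linarith)
        _ = δ / 2 * L := by ring
  obtain ⟨d0, hd0⟩ : ∃ d0, d0 = dens W0 := ⟨_, rfl⟩
  obtain ⟨e, he⟩ : ∃ e, e = 3 * Real.exp (40 - (σ : ℝ)) := ⟨_, rfl⟩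
  have he0 : 0 ≤ e := he ▸ by positivity
  have hW0p : ∀ p ∈ W0, Nat.Prime p := fun p hp => hP p (filter_subset _ _ (hW0 ▸ hp))
  have hd00 : 0 ≤ d0 := hd0 ▸ (dens_pos hW0p).le
  have hR0 : 0 ≤ R0 := le_trans (by positivity) hRW
  have hratA := ratio_of_all hall le_rfl (by linarith) (P.filter fun p : ℕ => z0 < (p : ℝ))
    fun p hp => hP p (mem_filter.1 hp).1
  have hsubA : ∀ a b : ℝ, z0 ≤ a → midP P a b ⊆ P.filter fun p : ℕ => z0 < (p : ℝ) :=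
    fun a b ha p hp => mem_filter.2 ⟨(mem_midP.1 hp).1, lt_of_le_of_lt ha (mem_midP.1 hp).2.1⟩
  have hbase : BaseAt m X (W0 ∪ midP P z0 w) (midP P w z) (d0 * dens (midP P z0 w)) e
      (R0 * Real.exp (L / σ)) := by
    intro T hT
    have h := fl_stage (m := m) (X := X) hlam1.le hlam100 hratA (by linarith) hz0w
      (fun p hp => hP p (mem_filter.1 hp).1) (fun p hp => (mem_filter.1 hp).2) hW0p
      (fun p hp => by rw [hW0, mem_filter] at hp; exact hp.2) (hT.trans (hsubA w z hz0w))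
      (hsubA z0 w le_rfl)
      (fun p hp q hq => by
        exact_mod_cast lt_of_le_of_lt (mem_midP.1 hp).2.2 (mem_midP.1 (hT hq)).2.1)
      (fun p hp => (mem_midP.1 hp).2.2) (σ := σ) (by omega)
    rw [← hd0, hlogw, ← he,
      show (σ : ℝ) * (L / (σ : ℝ) ^ 2) = L / σ by field_simp] at h
    rw [show (X : ℝ) * (d0 * dens (midP P z0 w)) / ((∏ p ∈ T, p : ℕ) : ℝ) =
      X * d0 / ((∏ p ∈ T, p : ℕ) : ℝ) * dens (midP P z0 w) by ring]
    exact h.trans (add_le_add le_rfl (mul_le_mul_of_nonneg_right hRW (Real.exp_pos _).le))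
  have hratW := ratio_of_all hall hz0w (by linarith) (midP P w z) hQ
  have hv : 0 ≤ d0 * dens (midP P z0 w) :=
    mul_nonneg hd00 (dens_pos fun p hp => hP p (mem_midP.1 hp).1).le
  have hzw : Real.log z ≤ (σ : ℝ) ^ 2 * Real.log w := by
    rw [hlogz, hlogw, mul_div_cancel₀ _ (by positivity)]; exact hlz2
  have hr0 : 0 ≤ R0 * Real.exp (L / σ) := mul_nonneg hR0 (Real.exp_pos _).le
  have h := window_lower hu0 hσu hN hlam1.le hlam2 hω0 hω1 hpos hγ hκ hκγ hQ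
    (fun p hp => (mem_midP.1 hp).2) hratW (by linarith) hwz hzw hgain hbase hv he0 hr0
  have herr := errSum_le (x := (X : ℝ) * (d0 * dens (midP P z0 w))) (D := z ^ 2) he0 hr0
    (mul_nonneg (Nat.cast_nonneg X) hv) (sq_nonneg z) (midP P w z) hQ
  have hratio : ∏ p ∈ midP P w z, (1 - 1 / (p : ℝ))⁻¹ ≤ 2 * (σ : ℝ) ^ 2 := by
    have h := hratW w z le_rfl hwz.le
    rw [filter_true_of_mem fun p hp => (mem_midP.1 hp).2] at h
    refine h.trans (mul_le_mul hlam2 ?_ (div_nonneg (by linarith) ?_) (by norm_num))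
    · rw [div_le_iff₀ (by rw [hlogw]; positivity)]; exact hzw
    · rw [hlogw]; positivity
  have hdwlow : 1 ≤ dens (midP P w z) * (2 * (σ : ℝ) ^ 2) := by
    rw [← mul_inv_cancel₀ (dens_pos hQ).ne']
    refine mul_le_mul_of_nonneg_left ?_ (dens_pos hQ).le
    rw [dens, ← prod_inv_distrib]
    exact hratio
  rw [dens_mid hz0w hwz.le, ← hd0]
  obtain ⟨A, hA⟩ : ∃ A, A = (X : ℝ) * (d0 * dens (midP P z0 w)) := ⟨_, rfl⟩
  rw [← hA] at h herr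
  rw [show (X : ℝ) * (d0 * (dens (midP P z0 w) * dens (midP P w z))) =
    A * dens (midP P w z) by rw [hA]; ring]
  have hA0 : 0 ≤ A := hA ▸ mul_nonneg (Nat.cast_nonneg X) hv
  have h1 := mul_le_mul_of_nonneg_left ((prod_plus_le hQ).trans hratio) (mul_nonneg he0 hA0)
  have h2 : e * A * (2 * (σ : ℝ) ^ 2) ≤ A * dens (midP P w z) * (γ / 8) := by
    calc e * A * (2 * (σ : ℝ) ^ 2)
        ≤ e * A * (2 * (σ : ℝ) ^ 2) * (dens (midP P w z) * (2 * (σ : ℝ) ^ 2)) :=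
          le_mul_of_one_le_right (by positivity) hdwlow
      _ = A * dens (midP P w z) * (e * (4 * (σ : ℝ) ^ 4)) := by ring
      _ ≤ A * dens (midP P w z) * (γ / 8) :=
          mul_le_mul_of_nonneg_left (he ▸ hσe) (mul_nonneg hA0 (dens_pos hQ).le)
  have h3 : R0 * Real.exp (L / σ) * z ^ 2 = R0 * Real.exp ((2 - 3 / (σ : ℝ)) * L) := by
    rw [hz, ← Real.exp_nat_mul, mul_assoc, ← Real.exp_add]
    congr 2
    push_cast
    ring
  linarith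

/-- The primes of `P` above `z` remove little. -/
lemma big_part {σ k : ℕ} {γ lam z0 R0 L w z y V : ℝ} {X : ℕ} {m : ℤ} {P W0 : Finset ℕ}
    (hσ48 : 48 ≤ σ) (hσγ : 102400 / (σ : ℝ) ≤ γ)
    (hlam1 : 1 < lam) (hlam100 : lam ≤ 1 + 1 / 100) (hlamσ : lam ≤ 1 + 1 / (σ : ℝ))
    (hz04 : 4 ≤ z0) (hall : ∀ x y : ℝ, z0 ≤ x → x ≤ y →
      ∏ p ∈ primesIn x y, (1 - 1 / (p : ℝ))⁻¹ ≤ lam * (Real.log y / Real.log x))
    (hL1 : (σ : ℝ) ^ 2 ≤ L) (hL2 : (σ : ℝ) ^ 2 * z0 ≤ L) (hkL : (k : ℝ) = Real.exp L)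
    (hw : w = Real.exp (L / (σ : ℝ) ^ 2)) (hz : z = Real.exp ((1 - 2 / (σ : ℝ)) * L))
    (hy : y = Real.exp (L / 80))
    (hP : ∀ p ∈ P, Nat.Prime p) (hcard : P.card ≤ k)
    (hW0 : W0 = P.filter fun p : ℕ => (p : ℝ) ≤ z0) (hRW : (2 : ℝ) ^ W0.card ≤ R0)
    (hV : V = dens W0 * dens (midP P z0 z)) :
    ∑ p ∈ P.filter (fun p : ℕ => z < (p : ℝ)), (cnt m X p (W0 ∪ midP P z0 y) : ℝ) ≤
      X * V * (γ / 8) + R0 * Real.exp ((2 - 3 / (σ : ℝ)) * L) := by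
  have hσ' : (48 : ℝ) ≤ σ := by exact_mod_cast hσ48
  have hσ0 : (0 : ℝ) < σ := by linarith
  obtain ⟨hz0w, hwz, hz0y, hyz, hlz1, hlz2, -, hL⟩ := scales hσ' hz04 hL2
  rw [← hw] at hz0w hwz
  rw [← hz] at hwz hyz
  rw [← hy] at hz0y hyz
  have hlogy : Real.log y = L / 80 := by rw [hy, Real.log_exp]
  have hlogz : Real.log z = (1 - 2 / (σ : ℝ)) * L := by rw [hz, Real.log_exp]
  have hR0 : 0 ≤ R0 := le_trans (by positivity) hRW
  obtain ⟨QA, hQAd⟩ : ∃ QA, QA = P.filter fun p : ℕ => z0 < (p : ℝ) := ⟨_, rfl⟩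
  have hQAp : ∀ p ∈ QA, Nat.Prime p := fun p hp => hP p (filter_subset _ _ (hQAd ▸ hp))
  have hQA : ∀ p ∈ QA, z0 < (p : ℝ) := fun p hp => by rw [hQAd, mem_filter] at hp; exact hp.2
  have hratA := ratio_of_all hall le_rfl (by linarith) QA hQAp
  have hW0p : ∀ p ∈ W0, Nat.Prime p := fun p hp => hP p (filter_subset _ _ (hW0 ▸ hp))
  have hd0 : 0 < dens W0 := dens_pos hW0p
  have hdz : 0 < dens (midP P z0 z) := dens_pos fun p hp => hP p (mem_midP.1 hp).1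
  have hsubA : ∀ b : ℝ, midP P z0 b ⊆ QA := fun b p hp =>
    hQAd ▸ mem_filter.2 ⟨(mem_midP.1 hp).1, (mem_midP.1 hp).2.1⟩
  have hXV : 0 ≤ (X : ℝ) * V := hV ▸ by positivity
  have hdy : dens W0 * dens (midP P z0 y) ≤ 160 * V := by
    have h := ratio_Q' hQAp (hsubA z) hyz (fun p hp => (mem_midP.1 hp).2.2)
    have e1 : (midP P z0 z).filter (fun p : ℕ => (p : ℝ) ≤ y) = midP P z0 y := by
      ext p; simp only [mem_filter, mem_midP]
      exact ⟨fun h => ⟨h.1.1, h.1.2.1, h.2⟩, fun h => ⟨⟨h.1, h.2.1, h.2.2.trans hyz⟩, h.2.2⟩⟩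
    rw [e1] at h
    have h2 := h.trans (mul_le_mul_of_nonneg_left (hratA y z hz0y hyz) hdz.le)
    have h3 : lam * (Real.log z / Real.log y) ≤ 2 * 80 := by
      refine mul_le_mul (by linarith) ?_ (div_nonneg ?_ ?_) (by norm_num)
      · rw [hlogy, hlogz, div_le_iff₀ (by positivity)]; linarith
      · rw [hlogz]; linarith
      · rw [hlogy]; linarith
    have h4 := mul_le_mul_of_nonneg_left (h2.trans (mul_le_mul_of_nonneg_left h3 hdz.le)) hd0.le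
    rw [hV]
    linarith
  obtain ⟨big, hbigd⟩ : ∃ big, big = P.filter fun p : ℕ => z < (p : ℝ) := ⟨_, rfl⟩
  rw [← hbigd]
  have hbigA : big ⊆ QA := fun p hp => by
    rw [hbigd, mem_filter] at hp
    exact hQAd ▸ mem_filter.2 ⟨hp.1, lt_of_le_of_lt (hz0w.trans hwz.le) hp.2⟩
  have hbigk : (big.card : ℝ) ≤ Real.exp L := by
    rw [← hkL]
    exact_mod_cast le_trans (card_le_card (hbigd ▸ filter_subset _ _)) hcard
  have hone : ∀ p ∈ big, (cnt m X p (W0 ∪ midP P z0 y) : ℝ) ≤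
      640 * (X * V) * (1 / (p : ℝ)) + R0 * Real.exp (L / 2) := by
    intro p hp
    have h := fl_stage (m := m) (X := X) (T := {p}) hlam1.le hlam100 hratA (by linarith) hz0y
      hQAp hQA hW0p (fun q hq => by rw [hW0, mem_filter] at hq; exact hq.2)
      (singleton_subset_iff.2 (hbigA hp)) (hsubA y)
      (fun q hq t ht => by
        rw [mem_singleton] at ht; subst ht
        have h2 : z < (t : ℝ) := by rw [hbigd, mem_filter] at hp; exact hp.2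
        exact_mod_cast lt_of_le_of_lt ((mem_midP.1 hq).2.2.trans hyz) h2)
      (fun q hq => (mem_midP.1 hq).2.2) (σ := 40) le_rfl
    simp only [prod_singleton] at h
    rw [hlogy, Nat.cast_ofNat, sub_self, Real.exp_zero, mul_one,
      show (40 : ℝ) * (L / 80) = L / 2 by ring] at h
    have h1 := (abs_le.1 h).2
    have h2 : X * dens W0 / (p : ℝ) * dens (midP P z0 y) ≤ 160 * (X * V) * (1 / (p : ℝ)) := by
      calc X * dens W0 / (p : ℝ) * dens (midP P z0 y)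
          = X * (1 / (p : ℝ)) * (dens W0 * dens (midP P z0 y)) := by ring
        _ ≤ X * (1 / (p : ℝ)) * (160 * V) := mul_le_mul_of_nonneg_left hdy (by positivity)
        _ = _ := by ring
    linarith [mul_le_mul_of_nonneg_right hRW (Real.exp_pos (L / 2)).le]
  refine (sum_le_sum hone).trans ?_
  rw [sum_add_distrib, ← mul_sum, sum_const, nsmul_eq_mul]
  refine add_le_add ?_ ?_
  · have hS1 : ∑ p ∈ big, 1 / (p : ℝ) ≤ 10 / (σ : ℝ) :=
      big_sum_le hall hσ' hlamσ hL1 hz (hz0w.trans hwz.le)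
        (fun p hp => hQAp p (hbigA hp)) (fun p hp => by rw [hbigd, mem_filter] at hp; exact hp.2) hbigk
    calc 640 * (X * V) * ∑ p ∈ big, 1 / (p : ℝ) ≤ 640 * (X * V) * (10 / (σ : ℝ)) :=
          mul_le_mul_of_nonneg_left hS1 (by positivity)
      _ = X * V * (102400 / (σ : ℝ) / 16) := by ring
      _ ≤ X * V * (γ / 8) := by
          refine mul_le_mul_of_nonneg_left ?_ hXV
          have : 0 < 102400 / (σ : ℝ) := by positivity
          linarith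
  · calc (big.card : ℝ) * (R0 * Real.exp (L / 2)) ≤ Real.exp L * (R0 * Real.exp (L / 2)) :=
          mul_le_mul_of_nonneg_right hbigk (mul_nonneg hR0 (Real.exp_pos _).le)
      _ = R0 * Real.exp (L + L / 2) := by rw [Real.exp_add]; ring
      _ ≤ R0 * Real.exp ((2 - 3 / (σ : ℝ)) * L) := by
          refine mul_le_mul_of_nonneg_left (Real.exp_le_exp.2 ?_) hR0
          have h5 : 3 / (σ : ℝ) ≤ 1 / 2 := by rw [div_le_iff₀ hσ0]; linarith
          linarith [mul_le_mul_of_nonneg_right h5 hL.le]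

/-- The density of `P` up to `z` is at least a power of `1 / log`. -/
lemma dens_low {lam z0 z L : ℝ} {P W0 : Finset ℕ}
    (hall : ∀ x y : ℝ, z0 ≤ x → x ≤ y →
      ∏ p ∈ primesIn x y, (1 - 1 / (p : ℝ))⁻¹ ≤ lam * (Real.log y / Real.log x))
    (hlam2 : lam ≤ 2) (hz04 : 4 ≤ z0) (hz0z : z0 ≤ z) (hzL : Real.log z ≤ L)
    (hlz0 : 1 ≤ Real.log z0) (hP : ∀ p ∈ P, Nat.Prime p)
    (hW0 : W0 = P.filter fun p : ℕ => (p : ℝ) ≤ z0)
    (hW0card : (W0.card : ℝ) ≤ z0 + 1) :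
    1 ≤ dens W0 * dens (midP P z0 z) * ((z0 + 3) * (2 * L)) := by
  have hW0p : ∀ p ∈ W0, Nat.Prime p := fun p hp => hP p (filter_subset _ _ (hW0 ▸ hp))
  have hd0 := dens_pos hW0p
  have h1 : 1 ≤ dens W0 * (z0 + 3) := by
    have h2 := dens_lower W0 hW0p
    rw [div_le_iff₀ (by positivity)] at h2
    linarith [mul_le_mul_of_nonneg_left (by linarith : (W0.card : ℝ) + 1 ≤ z0 + 3) hd0.le]
  have hQ : ∀ p ∈ midP P z0 z, Nat.Prime p := fun p hp => hP p (mem_midP.1 hp).1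
  have h2 : 1 ≤ dens (midP P z0 z) * (2 * L) := by
    have hdz := dens_pos hQ
    have h := ratio_of_all hall le_rfl (by linarith) (midP P z0 z) hQ z0 z le_rfl hz0z
    rw [filter_true_of_mem fun p hp => (mem_midP.1 hp).2, prod_inv_distrib, ← dens] at h
    have hlz : 1 ≤ Real.log z := hlz0.trans (Real.log_le_log (by linarith) hz0z)
    have h3 : lam * (Real.log z / Real.log z0) ≤ 2 * L := by
      refine mul_le_mul hlam2 ((div_le_self (by linarith) hlz0).trans hzL) ?_ (by norm_num)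
      exact div_nonneg (by linarith) (by linarith)
    calc 1 = dens (midP P z0 z) * (dens (midP P z0 z))⁻¹ := (mul_inv_cancel₀ hdz.ne').symm
      _ ≤ dens (midP P z0 z) * (2 * L) := mul_le_mul_of_nonneg_left (h.trans h3) hdz.le
  calc (1 : ℝ) ≤ (dens W0 * (z0 + 3)) * (dens (midP P z0 z) * (2 * L)) :=
        one_le_mul_of_one_le_of_one_le h1 h2
    _ = _ := by ring

/-- Four ranges cover `P`; the primes above `z` are removed by Buchstab's identity. -/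
lemma split_count {m : ℤ} {X : ℕ} {P : Finset ℕ} {z0 w y z : ℝ} (hyz : y ≤ z) :
    (cnt m X 1 (P.filter (fun p : ℕ => (p : ℝ) ≤ z0) ∪ midP P z0 w ∪ midP P w z) : ℝ) -
        ∑ p ∈ P.filter (fun p : ℕ => z < (p : ℝ)),
          (cnt m X p (P.filter (fun p : ℕ => (p : ℝ) ≤ z0) ∪ midP P z0 y) : ℝ) ≤
      cnt m X 1 P := by
  obtain ⟨W, hW⟩ : ∃ W, W = P.filter (fun p : ℕ => (p : ℝ) ≤ z0) ∪ midP P z0 w ∪ midP P w z :=
    ⟨_, rfl⟩
  obtain ⟨big, hbig⟩ : ∃ big, big = P.filter fun p : ℕ => z < (p : ℝ) := ⟨_, rfl⟩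
  rw [← hW, ← hbig]
  have hP : W ∪ big = P := by
    ext p
    simp only [hW, hbig, mem_union, mem_filter, mem_midP]
    constructor
    · rintro (((h | h) | h) | h) <;> exact h.1
    · intro h
      rcases le_or_gt (p : ℝ) z0 with h1 | h1
      · exact Or.inl (Or.inl (Or.inl ⟨h, h1⟩))
      rcases le_or_gt (p : ℝ) w with h2 | h2
      · exact Or.inl (Or.inl (Or.inr ⟨h, h1, h2⟩))
      rcases le_or_gt (p : ℝ) z with h3 | h3
      · exact Or.inl (Or.inr ⟨h, h2, h3⟩)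
      · exact Or.inr ⟨h, h3⟩
  have hbu := cnt_buchstab (m := m) (X := X) 1 W big fun p _ => Nat.coprime_one_left p
  rw [hP] at hbu
  have hle : ∑ p ∈ big, (cnt m X (1 * p) (W ∪ below big p) : ℝ) ≤
      ∑ p ∈ big, (cnt m X p (P.filter (fun p : ℕ => (p : ℝ) ≤ z0) ∪ midP P z0 y) : ℝ) := by
    refine sum_le_sum fun p _ => ?_
    rw [one_mul]
    refine cnt_anti fun q hq => ?_
    refine mem_union_left _ ?_
    rw [hW]
    rcases mem_union.1 hq with h | h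
    · exact mem_union_left _ (mem_union_left _ h)
    · rw [mem_midP] at h
      rcases le_or_gt (q : ℝ) w with h2 | h2
      · exact mem_union_left _ (mem_union_right _ (mem_midP.2 ⟨h.1, h.2.1, h2⟩))
      · exact mem_union_right _ (mem_midP.2 ⟨h.1, h2, h.2.2.trans hyz⟩)
  linarith

/-- For large `k` some member of the interval avoids all the primes. -/
theorem large_k (δ ε : ℝ) (hδ : 0 < δ) (hε : 0 < ε) : ∃ (η : ℝ) (k0 : ℕ), 0 < η ∧ η ≤ 1 ∧ 2 ≤ k0 ∧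
    ∀ (k : ℕ) (P : Finset ℕ) (x : ℤ), k0 ≤ k → (∀ p ∈ P, Nat.Prime p) → P.card ≤ k →
      ε ≤ ∑ p ∈ (range (k + 1)).filter (fun p : ℕ => p.Prime ∧ (k : ℝ) ^ δ ≤ (p : ℝ) ∧ p ∉ P),
        1 / (p : ℝ) →
      (0 : ℝ) < cnt x ⌈(k : ℝ) ^ (2 - η)⌉₊ 1 P := by
  obtain ⟨u0, σ, N, γ, c, lam, κ, hu0, hu0δ, hc0, hγ0, hγ, hpos, hσ48, hσu, hσε, hσδ, hσγ, hσe,
    hN, hlam1, hlam100, hlamσ, hκ, hκγ⟩ := params δ ε hδ hε
  obtain ⟨z0, hz04, hall⟩ := ratio_all lam hlam1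
  obtain ⟨R0, hR0⟩ : ∃ R0 : ℝ, R0 = (2 : ℝ) ^ (⌊z0⌋₊ + 1) := ⟨_, rfl⟩
  obtain ⟨L0, hL0⟩ : ∃ L0 : ℝ, L0 = max ((σ : ℝ) ^ 2 * z0)
      (16 * R0 * (z0 + 3) * (σ : ℝ) ^ 2 / γ) := ⟨_, rfl⟩
  have hσ0 : (0 : ℝ) < σ := by exact_mod_cast (by omega : 0 < σ)
  have hσ1 : (1 : ℝ) ≤ σ := by exact_mod_cast (by omega : 1 ≤ σ)
  refine ⟨1 / σ, ⌈Real.exp L0⌉₊ + 2, by positivity, (div_le_one hσ0).2 hσ1, by omega,
    fun k P x hk hP hcard hmiss => ?_⟩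
  have hk0 : (0 : ℝ) < k := by exact_mod_cast (by omega : 0 < k)
  obtain ⟨L, hL⟩ : ∃ L : ℝ, L = Real.log k := ⟨_, rfl⟩
  have hLb : L0 ≤ L := by
    rw [hL, ← Real.log_exp L0]
    refine Real.log_le_log (Real.exp_pos _) ((Nat.le_ceil _).trans ?_)
    exact_mod_cast (by omega : ⌈Real.exp L0⌉₊ ≤ k)
  have hkL : (k : ℝ) = Real.exp L := by rw [hL, Real.exp_log hk0]
  have hL2 : (σ : ℝ) ^ 2 * z0 ≤ L := (hL0 ▸ le_max_left _ _ : _ ≤ L0).trans hLb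
  have hL3 : 16 * R0 * (z0 + 3) * (σ : ℝ) ^ 2 / γ ≤ L :=
    (hL0 ▸ le_max_right _ _ : _ ≤ L0).trans hLb
  have hL1 : (σ : ℝ) ^ 2 ≤ L := le_trans (le_mul_of_one_le_right (sq_nonneg _) (by linarith)) hL2
  obtain ⟨X, hX⟩ : ∃ X : ℕ, X = ⌈(k : ℝ) ^ (2 - 1 / (σ : ℝ))⌉₊ := ⟨_, rfl⟩
  rw [← hX]
  have hXL : Real.exp ((2 - 1 / (σ : ℝ)) * L) ≤ X := by
    rw [hX, hkL, ← Real.exp_mul, mul_comm L]
    exact Nat.le_ceil _
  have hσ' : (48 : ℝ) ≤ σ := by exact_mod_cast hσ48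
  obtain ⟨hz0w, hwz, hz0y, hyz, hlz1, hlz2, hlz0, hLpos⟩ := scales hσ' hz04 hL2
  obtain ⟨W0, hW0⟩ : ∃ W0, W0 = P.filter fun p : ℕ => (p : ℝ) ≤ z0 := ⟨_, rfl⟩
  have hW0card : W0.card ≤ ⌊z0⌋₊ + 1 := by
    have : W0 ⊆ range (⌊z0⌋₊ + 1) := fun p hp =>
      mem_range.2 (Nat.lt_succ_of_le (Nat.le_floor (by rw [hW0, mem_filter] at hp; exact hp.2)))
    simpa using card_le_card this
  have hRW : (2 : ℝ) ^ W0.card ≤ R0 := hR0 ▸ pow_le_pow_right₀ (by norm_num) hW0card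
  obtain ⟨V, hV⟩ : ∃ V, V = dens W0 * dens (midP P z0 (Real.exp ((1 - 2 / (σ : ℝ)) * L))) :=
    ⟨_, rfl⟩
  have hwin := window_part (m := x) (X := X) hu0 hu0δ hσ48 hσu hσδ hσε hσe hN hlam1 hlam100
    hlamσ hδ hε hpos hγ hκ hκγ hz04 hall hL2 hkL rfl rfl hP hW0 hRW rfl hmiss
  have hbig := big_part (m := x) (X := X) hσ48 hσγ hlam1 hlam100 hlamσ hz04 hall hL1 hL2 hkL
    rfl rfl rfl hP hcard hW0 hRW hV
  have hsplit := split_count (m := x) (X := X) (P := P) (z0 := z0) (w := Real.exp (L / (σ : ℝ) ^ 2)) hyz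
  rw [← hV] at hwin
  rw [← hW0] at hsplit
  have hV0 : 0 < V := hV ▸ mul_pos (dens_pos fun p hp => hP p (filter_subset _ _ (hW0 ▸ hp)))
    (dens_pos fun p hp => hP p (mem_midP.1 hp).1)
  have hVlow : 1 ≤ V * ((z0 + 3) * (2 * L)) := by
    rw [hV]
    refine dens_low hall (by linarith) hz04 (hz0w.trans hwz.le) (by rw [Real.log_exp]; exact hlz2)
      hlz0 hP hW0 ?_
    calc (W0.card : ℝ) ≤ ((⌊z0⌋₊ + 1 : ℕ) : ℝ) := by exact_mod_cast hW0card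
      _ ≤ z0 + 1 := by push_cast; linarith [Nat.floor_le (by linarith : 0 ≤ z0)]
  have hgap := gap_num (hR0 ▸ by positivity) (by linarith) hσ0 hγ0 hLpos hV0 hL3 hXL hVlow
  linarith [mul_nonneg (mul_nonneg (Nat.cast_nonneg X) hV0.le) hγ0.le]

end Vale.Agent.P013
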