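import Mathlib

/-!
The failure functions of the linear sieve on the grid `i / N`, and the elementary proof that the
lower bound sieve does not fail at `s = 2`, with a uniform gain from a far range.
-/

open Finset

noncomputable section

namespace Vale.Agent.P013

/-- The step operator `(1/i) ∑_{j = i}^{J} φ (j - N)`, with `i` replaced by `max i b`. -/
def gridStep (N J b : ℕ) (φ : ℕ → ℝ) (i : ℕ) : ℝ :=
  (∑ j ∈ Icc (max i b) J, φ (j - N)) / (max i b : ℕ)

/-- `(G, Q)`: failure bounds of lower and upper sieve after `n` steps. -/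
def grid (N J : ℕ) : ℕ → (ℕ → ℝ) × (ℕ → ℝ)
  | 0 => (fun i => if i < 2 * N then 1 else 0, fun _ => 0)
  | n + 1 => (fun i => if i < 2 * N then 1 else min 1 (gridStep N J (2 * N) (grid N J n).2 i),
      gridStep N J N (grid N J n).1)

/-- Lower failure. -/
def gG (N J n : ℕ) : ℕ → ℝ := (grid N J n).1

/-- Upper failure. -/
def gQ (N J n : ℕ) : ℕ → ℝ := (grid N J n).2

variable {N J : ℕ}

lemma gG_zero (i : ℕ) : gG N J 0 i = if i < 2 * N then 1 else 0 := rfl

lemma gQ_zero (i : ℕ) : gQ N J 0 i = 0 := rfl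

lemma gG_succ (n i : ℕ) : gG N J (n + 1) i =
    if i < 2 * N then 1 else min 1 (gridStep N J (2 * N) (gQ N J n) i) := rfl

lemma gQ_succ (n i : ℕ) : gQ N J (n + 1) i = gridStep N J N (gG N J n) i := rfl

lemma gridStep_nonneg {b : ℕ} {φ : ℕ → ℝ} (h : ∀ j, 0 ≤ φ j) (i : ℕ) :
    0 ≤ gridStep N J b φ i :=
  div_nonneg (sum_nonneg fun j _ => h _) (Nat.cast_nonneg _)

lemma gridStep_anti {b : ℕ} (hb : 0 < b) {φ : ℕ → ℝ} (h : ∀ j, 0 ≤ φ j) :
    Antitone (gridStep N J b φ) := by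
  intro i i' hi
  unfold gridStep
  refine div_le_div₀ (sum_nonneg fun j _ => h _) ?_ (by exact_mod_cast (by omega : 0 < max i b))
    (by exact_mod_cast (by omega : max i b ≤ max i' b))
  exact sum_le_sum_of_subset_of_nonneg (Icc_subset_Icc (by omega) le_rfl) fun j _ _ => h _

lemma gridStep_mono {b : ℕ} {φ ψ : ℕ → ℝ} (h : ∀ j, φ j ≤ ψ j) (i : ℕ) :
    gridStep N J b φ i ≤ gridStep N J b ψ i :=
  div_le_div_of_nonneg_right (sum_le_sum fun j _ => h _) (Nat.cast_nonneg _)

lemma grid_nonneg : ∀ n, (∀ i, 0 ≤ gG N J n i) ∧ ∀ i, 0 ≤ gQ N J n i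
  | 0 => ⟨fun i => by rw [gG_zero]; split_ifs <;> norm_num, fun i => le_rfl⟩
  | n + 1 => ⟨fun i => by
      rw [gG_succ]; split_ifs
      · norm_num
      · exact le_min zero_le_one (gridStep_nonneg (grid_nonneg n).2 i),
    fun i => by rw [gQ_succ]; exact gridStep_nonneg (grid_nonneg n).1 i⟩

lemma gG_le_one (n i : ℕ) : gG N J n i ≤ 1 := by
  cases n with
  | zero => rw [gG_zero]; split_ifs <;> norm_num
  | succ n => rw [gG_succ]; split_ifs <;> simp

lemma gG_eq_one (n i : ℕ) (h : i < 2 * N) : gG N J n i = 1 := by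
  cases n with
  | zero => rw [gG_zero, if_pos h]
  | succ n => rw [gG_succ, if_pos h]

lemma gG_anti (hN : 0 < N) (n : ℕ) : Antitone (gG N J n) := by
  intro i i' hi
  by_cases h : i < 2 * N
  · rw [gG_eq_one n i h]; exact gG_le_one n i'
  cases n with
  | zero => rw [gG_zero, gG_zero, if_neg h, if_neg (by omega)]
  | succ n =>
    rw [gG_succ, gG_succ, if_neg h, if_neg (by omega)]
    exact min_le_min le_rfl (gridStep_anti (by omega) (grid_nonneg n).2 hi)

lemma gQ_anti (hN : 0 < N) : ∀ n, Antitone (gQ N J n)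
  | 0 => fun _ _ _ => le_rfl
  | n + 1 => fun i i' hi => by
    rw [gQ_succ, gQ_succ]
    exact gridStep_anti hN (grid_nonneg n).1 hi

lemma grid_mono : ∀ n, (∀ i, gG N J n i ≤ gG N J (n + 1) i) ∧ ∀ i, gQ N J n i ≤ gQ N J (n + 1) i
  | 0 => ⟨fun i => by
      rw [gG_zero]; split_ifs with h
      · rw [gG_eq_one _ _ h]
      · exact (grid_nonneg 1).1 i,
    fun i => (grid_nonneg 1).2 i⟩
  | n + 1 => ⟨fun i => by
      rw [gG_succ, gG_succ]; split_ifs
      · exact le_rfl
      · exact min_le_min le_rfl (gridStep_mono (grid_mono n).2 i),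
    fun i => by rw [gQ_succ, gQ_succ]; exact gridStep_mono (grid_mono n).1 i⟩

lemma gQ_le (hN : 0 < N) (n i : ℕ) : gQ N J n i ≤ (J + 1 : ℕ) / (N : ℝ) := by
  cases n with
  | zero => rw [gQ_zero]; positivity
  | succ n =>
    rw [gQ_succ]
    unfold gridStep
    refine div_le_div₀ (by positivity) ?_ (by exact_mod_cast hN)
      (by exact_mod_cast le_max_right i N)
    refine (sum_le_card_nsmul _ _ 1 fun j _ => gG_le_one n _).trans ?_
    rw [Nat.card_Icc, nsmul_eq_mul, mul_one]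
    exact_mod_cast Nat.sub_le _ _

/-- The sum behind the lower sieve at `s = 2`. -/
def headSum (N J n : ℕ) : ℝ := ∑ j ∈ Icc (2 * N) J, gQ N J n (j - N)

lemma sum_Ico_lin (N : ℕ) :
    ∑ i ∈ Ico N (2 * N), (3 * (N : ℝ) - i) = (3 * (N : ℝ) ^ 2 + N) / 2 ∧
    ∑ i ∈ Ico (2 * N) (3 * N), (3 * (N : ℝ) - i) = ((N : ℝ) ^ 2 + N) / 2 := by
  have key : ∀ a b : ℕ, a ≤ b → ∑ i ∈ Ico a b, (i : ℝ) =
      ((b : ℝ) * (b - 1) - (a : ℝ) * (a - 1)) / 2 := by
    intro a b h
    induction b, h using Nat.le_induction with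
    | base => simp
    | succ b h ih => rw [sum_Ico_succ_top h, ih]; push_cast; ring
  constructor <;>
  · rw [sum_sub_distrib, sum_const, Nat.card_Ico, key _ _ (by omega)]
    rw [nsmul_eq_mul]
    have e1 : 2 * N - N = N := by omega
    have e2 : 3 * N - 2 * N = N := by omega
    simp only [e1, e2]
    push_cast
    ring

/-- The key inequality: the lower sieve does not fail at `s = 2`. -/
theorem headSum_le (hN : 12 ≤ N) (hJ : 4 * N ≤ J) (n : ℕ) : headSum N J n ≤ 2 * N + 10 := by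
  let a : ℕ → ℝ := gQ N J n
  let x : ℕ → ℝ := fun m => gQ N J n m + gG N J n m
  have hx0 : ∀ m, 0 ≤ x m := fun m => add_nonneg ((grid_nonneg n).2 m) ((grid_nonneg n).1 m)
  have ha0 : ∀ m, 0 ≤ a m := (grid_nonneg n).2
  obtain ⟨H, hH⟩ : ∃ H, H = headSum N J n := ⟨_, rfl⟩
  obtain ⟨B, hB⟩ : ∃ B, B = ∑ j ∈ Icc (3 * N) J, gG N J n (j - N) := ⟨_, rfl⟩
  obtain ⟨T, hT⟩ : ∃ T, T = ∑ j ∈ Icc (3 * N) J, x (j - N) := ⟨_, rfl⟩
  obtain ⟨A1, hA1⟩ : ∃ A1, A1 = ∑ i ∈ Ico N (2 * N), a i := ⟨_, rfl⟩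
  have shift : ∀ lo hi : ℕ, N ≤ lo → ∀ f : ℕ → ℝ,
      ∑ j ∈ Ico lo hi, f (j - N) = ∑ i ∈ Ico (lo - N) (hi - N), f i := by
    intro lo hi hlo f
    refine sum_bij' (fun j _ => j - N) (fun i _ => i + N) ?_ ?_ ?_ ?_ ?_ <;>
      simp +contextual only [mem_Ico, implies_true] <;> omega
  have icc : ∀ lo : ℕ, Icc lo J = Ico lo (J + 1) := fun lo => by ext; simp [Nat.lt_succ_iff]
  -- the lower sum splits at `3 N`
  have hsplit : H = A1 + (T - B) := by
    rw [hH, hA1, hT, hB, headSum, ← sum_sub_distrib, icc, icc,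
      ← sum_Ico_consecutive _ (by omega : 2 * N ≤ 3 * N) (by omega : 3 * N ≤ J + 1),
      shift (2 * N) (3 * N) (by omega)]
    rw [show 2 * N - N = N by omega, show 3 * N - N = 2 * N by omega]
    congr 1
    refine sum_congr rfl fun j _ => ?_
    simp [x, a]
  -- upper values
  have hQb : ∀ i, N ≤ i → i ≤ 3 * N → (i : ℝ) * a i ≤ (3 * (N : ℝ) - i) + B := by
    intro i hi hi3
    have h1 := (grid_mono (N := N) (J := J) n).2 i
    rw [gQ_succ, gridStep, max_eq_left hi] at h1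
    have hi0 : (0 : ℝ) < i := by exact_mod_cast (by omega : 0 < i)
    rw [le_div_iff₀ hi0] at h1
    rw [mul_comm]
    refine h1.trans ?_
    rw [icc, hB, icc, ← sum_Ico_consecutive _ hi3 (by omega : 3 * N ≤ J + 1)]
    refine add_le_add ?_ le_rfl
    refine (sum_le_card_nsmul _ _ 1 fun j _ => gG_le_one n _).trans ?_
    rw [Nat.card_Ico, nsmul_eq_mul, mul_one, Nat.cast_sub hi3]
    push_cast
    linarith
  have hGb : ∀ m, 2 * N ≤ m → m ≤ 3 * N →
      (m : ℝ) * gG N J n m ≤ H - ∑ i ∈ Ico N (m - N), a i := by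
    intro m hm hm3
    have h1 := (grid_mono (N := N) (J := J) n).1 m
    rw [gG_succ, if_neg (by omega)] at h1
    have h2 := h1.trans (min_le_right _ _)
    rw [gridStep, max_eq_left hm] at h2
    have hm0 : (0 : ℝ) < m := by exact_mod_cast (by omega : 0 < m)
    rw [le_div_iff₀ hm0] at h2
    rw [mul_comm]
    refine h2.trans (le_of_eq ?_)
    rw [hH, headSum, icc, icc,
      ← sum_Ico_consecutive _ hm (by omega : m ≤ J + 1), shift (2 * N) m (by omega)]
    rw [show 2 * N - N = N by omega]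
    ring
  -- the total failure is a subsolution
  have hP : ∀ i, 3 * N ≤ i → (i : ℝ) * x i ≤ ∑ j ∈ Icc i J, x (j - N) := by
    intro i hi
    have h1 := (grid_mono (N := N) (J := J) n).2 i
    have h2 := (grid_mono (N := N) (J := J) n).1 i
    rw [gQ_succ, gridStep, max_eq_left (by omega : N ≤ i)] at h1
    rw [gG_succ, if_neg (by omega)] at h2
    have h3 := h2.trans (min_le_right _ _)
    rw [gridStep, max_eq_left (by omega : 2 * N ≤ i)] at h3
    have hi0 : (0 : ℝ) < i := by exact_mod_cast (by omega : 0 < i)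
    rw [le_div_iff₀ hi0] at h1 h3
    simp only [x, sum_add_distrib]
    linarith
  -- summation by parts
  have hswap : ∑ i ∈ Icc (3 * N) J, ∑ j ∈ Icc i J, x (j - N) =
      ∑ j ∈ Icc (3 * N) J, ((j : ℝ) - 3 * N + 1) * x (j - N) := by
    rw [sum_comm' (t' := Icc (3 * N) J) (s' := fun j => Icc (3 * N) j)]
    · refine sum_congr rfl fun j hj => ?_
      simp only [mem_Icc] at hj
      rw [sum_const, Nat.card_Icc, nsmul_eq_mul, Nat.cast_sub (by omega)]
      push_cast
      ring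
    · intro i j; simp only [mem_Icc]; omega
  have hmain : (2 * (N : ℝ) - 1) * T ≤ ∑ m ∈ Ico (2 * N) (3 * N), (m : ℝ) * x m := by
    have h1 : ∑ m ∈ Ico (3 * N) (J + 1 - N), (m : ℝ) * x m ≤
        ∑ j ∈ Icc (3 * N) J, ((j : ℝ) - 3 * N + 1) * x (j - N) := by
      rw [← hswap]
      refine (sum_le_sum_of_subset_of_nonneg ?_ fun i _ _ => by
        exact mul_nonneg (Nat.cast_nonneg _) (hx0 i)).trans
        (sum_le_sum fun i hi => hP i (mem_Icc.1 hi).1)
      intro i; simp only [mem_Ico, mem_Icc]; omega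
    have h2 : ∑ j ∈ Icc (3 * N) J, (2 * (N : ℝ) - 1) * x (j - N) =
        ∑ m ∈ Ico (2 * N) (J + 1 - N), (2 * (N : ℝ) - 1) * x m := by
      rw [icc, shift (3 * N) (J + 1) (by omega) fun i => (2 * (N : ℝ) - 1) * x i,
        show 3 * N - N = 2 * N by omega]
    have h3 : ∑ j ∈ Icc (3 * N) J, ((j : ℝ) - 3 * N + 1) * x (j - N) =
        ∑ m ∈ Ico (2 * N) (J + 1 - N), ((m : ℝ) - (2 * N - 1)) * x m := by
      rw [icc, ← show 3 * N - N = 2 * N by omega,
        ← shift (3 * N) (J + 1) (by omega) fun i => ((i : ℝ) - (2 * N - 1)) * x i]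
      refine sum_congr rfl fun j hj => ?_
      simp only [mem_Ico] at hj
      rw [Nat.cast_sub (by omega)]
      ring
    rw [hT, mul_sum, h2]
    rw [h3] at h1
    have e1 : ∑ m ∈ Ico (2 * N) (J + 1 - N), ((m : ℝ) - (2 * N - 1)) * x m =
        ∑ m ∈ Ico (2 * N) (J + 1 - N), (m : ℝ) * x m -
          ∑ m ∈ Ico (2 * N) (J + 1 - N), (2 * (N : ℝ) - 1) * x m := by
      rw [← sum_sub_distrib]; exact sum_congr rfl fun m _ => by ring
    have e2 := sum_Ico_consecutive (fun m => (m : ℝ) * x m)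
      (by omega : 2 * N ≤ 3 * N) (by omega : 3 * N ≤ J + 1 - N)
    linarith
  have hxm : ∑ m ∈ Ico (2 * N) (3 * N), (m : ℝ) * x m ≤
      ((N : ℝ) ^ 2 + N) / 2 + N * B + N * H -
        ∑ i ∈ Ico N (2 * N), (2 * (N : ℝ) - 1 - i) * a i := by
    have h1 : ∑ m ∈ Ico (2 * N) (3 * N), (m : ℝ) * x m ≤
        ∑ m ∈ Ico (2 * N) (3 * N),
          ((3 * (N : ℝ) - m) + B + (H - ∑ i ∈ Ico N (m - N), a i)) := by
      refine sum_le_sum fun m hm => ?_
      simp only [mem_Ico] at hm
      rw [mul_add]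
      exact add_le_add (hQb m (by omega) hm.2.le) (hGb m hm.1 hm.2.le)
    refine h1.trans (le_of_eq ?_)
    rw [sum_add_distrib, sum_add_distrib, (sum_Ico_lin N).2, sum_sub_distrib]
    simp only [sum_const, Nat.card_Ico, show 3 * N - 2 * N = N by omega, nsmul_eq_mul]
    have : ∑ m ∈ Ico (2 * N) (3 * N), ∑ i ∈ Ico N (m - N), a i =
        ∑ i ∈ Ico N (2 * N), (2 * (N : ℝ) - 1 - i) * a i := by
      rw [sum_comm' (t' := Ico N (2 * N)) (s' := fun i => Ico (i + N + 1) (3 * N))]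
      · refine sum_congr rfl fun i hi => ?_
        simp only [mem_Ico] at hi
        rw [sum_const, Nat.card_Ico, nsmul_eq_mul, Nat.cast_sub (by omega)]
        push_cast
        ring
      · intro m i; simp only [mem_Ico]; omega
    rw [this]
    ring
  have hA : ∑ i ∈ Ico N (2 * N), (i : ℝ) * a i ≤ (3 * (N : ℝ) ^ 2 + N) / 2 + N * B := by
    calc ∑ i ∈ Ico N (2 * N), (i : ℝ) * a i
        ≤ ∑ i ∈ Ico N (2 * N), ((3 * (N : ℝ) - i) + B) := sum_le_sum fun i hi => by
          simp only [mem_Ico] at hi; exact hQb i hi.1 (by omega)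
      _ = _ := by
          rw [sum_add_distrib, (sum_Ico_lin N).1, sum_const, Nat.card_Ico,
            show 2 * N - N = N by omega, nsmul_eq_mul]
  have hA1' : ∑ i ∈ Ico N (2 * N), (2 * (N : ℝ) - 1 - i) * a i =
      (2 * (N : ℝ) - 1) * A1 - ∑ i ∈ Ico N (2 * N), (i : ℝ) * a i := by
    rw [hA1, mul_sum, ← sum_sub_distrib]
    exact sum_congr rfl fun i _ => by ring
  have hA1nn : 0 ≤ ∑ i ∈ Ico N (2 * N), (2 * (N : ℝ) - 1 - i) * a i := by
    refine sum_nonneg fun i hi => mul_nonneg ?_ (ha0 i)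
    simp only [mem_Ico] at hi
    have : (i : ℝ) + 1 ≤ 2 * N := by exact_mod_cast (by omega : i + 1 ≤ 2 * N)
    linarith
  have hBT : B ≤ T := by
    rw [hB, hT]; exact sum_le_sum fun j _ => le_add_of_nonneg_left ((grid_nonneg n).2 _)
  have hB0 : 0 ≤ B := hB ▸ sum_nonneg fun j _ => (grid_nonneg n).1 _
  have hH0 : 0 ≤ H := hH ▸ sum_nonneg fun j _ => (grid_nonneg n).2 _
  have hN' : (12 : ℝ) ≤ N := by exact_mod_cast hN
  rw [← hH]
  have eT : (2 * (N : ℝ) - 1) * T = (2 * (N : ℝ) - 1) * (B + H - A1) := by rw [hsplit]; ring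
  have f1 : ((N : ℝ) - 1) * H - B ≤ 2 * (N : ℝ) ^ 2 + N := by nlinarith
  have f2 : B ≤ 2 * ((N : ℝ) + H) := by
    have hmul : (2 * (N : ℝ) - 1) * B ≤ (2 * (N : ℝ) - 1) * T :=
      mul_le_mul_of_nonneg_left hBT (by linarith)
    nlinarith
  nlinarith

/-- Positivity of both failure functions propagates by half a unit at each step. -/
lemma grid_pos : ∀ n, ∃ c : ℝ, 0 < c ∧ ∀ N J : ℕ, 1 ≤ N → (n + 4) * N ≤ J → 1 ≤ n →
    ∀ i, 2 * i ≤ (2 + n) * N → c ≤ gG N J n i ∧ c ≤ gQ N J n i := by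
  intro n
  induction n with
  | zero => exact ⟨1, one_pos, fun N J _ _ h => absurd h (by omega)⟩
  | succ n ih =>
    obtain ⟨c0, hc0, ih⟩ := ih
    obtain ⟨c, hc⟩ : ∃ c, c = min 1 c0 := ⟨_, rfl⟩
    have hcpos : 0 < c := hc ▸ lt_min one_pos hc0
    refine ⟨min c (c / ((n : ℝ) + 8)), lt_min hcpos (by positivity), fun N J hN hJ _ => ?_⟩
    have hJn : (n + 4) * N ≤ J := le_trans (Nat.mul_le_mul_right N (by omega)) hJ
    have hGpre : ∀ i, 2 * i ≤ (2 + n) * N → c ≤ gG N J n i := by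
      intro i hi
      rcases Nat.eq_zero_or_pos n with rfl | hn
      · rw [gG_zero, if_pos (by omega)]; exact hc ▸ min_le_left _ _
      · exact le_trans (hc ▸ min_le_right _ _) (ih N J hN hJn hn i hi).1
    have hGpre' : ∀ i, 2 * i ≤ 3 * N → c ≤ gG N J n i := fun i hi => by
      rw [gG_eq_one _ _ (by omega)]; exact hc ▸ min_le_left _ _
    -- one step of the operator
    have step : ∀ (b : ℕ) (φ : ℕ → ℝ), 0 < b → b ≤ 2 * N → (∀ j, 0 ≤ φ j) →
        (∀ j, N ≤ j → 2 * (j - N) ≤ max 3 (2 + n) * N → c ≤ φ (j - N)) →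
        ∀ i, 2 * b ≤ (3 + n) * N → 2 * i ≤ (3 + n) * N →
          c / ((n : ℝ) + 8) ≤ gridStep N J b φ i := by
      intro b φ hb0 hb hφ0 hφ i hb2 hi
      obtain ⟨M, hM⟩ : ∃ M, M = max i b := ⟨_, rfl⟩
      have hM2 : 2 * M ≤ (3 + n) * N := by omega
      rw [gridStep, ← hM]
      have hMp : 0 < M := by omega
      obtain ⟨top, htop⟩ : ∃ top, top = (4 + n) * N / 2 := ⟨_, rfl⟩
      have htop1 : 2 * top ≤ (4 + n) * N := by omega
      have htop2 : (4 + n) * N ≤ 2 * top + 1 := by omega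
      have e : (4 + n) * N = (3 + n) * N + N := by ring
      have e' : (4 + n) * N = (n + 4) * N := by ring
      have hcount : N ≤ 2 * (top + 1 - M) := by omega
      have hsum : c * ((top + 1 - M : ℕ) : ℝ) ≤ ∑ j ∈ Icc M J, φ (j - N) := by
        calc c * ((top + 1 - M : ℕ) : ℝ) = (Icc M top).card • c := by
              rw [Nat.card_Icc, nsmul_eq_mul]; ring
          _ ≤ ∑ j ∈ Icc M top, φ (j - N) := by
              refine card_nsmul_le_sum _ _ _ fun j hj => ?_
              simp only [mem_Icc] at hj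
              by_cases hjN : N ≤ j
              · refine hφ j hjN ?_
                have h5 : (2 + n) * N ≤ max 3 (2 + n) * N := Nat.mul_le_mul_right N (le_max_right _ _)
                have h6 : (4 + n) * N = (2 + n) * N + 2 * N := by ring
                omega
              · rw [show j - N = N - N by omega]
                exact hφ N le_rfl (by simp)
          _ ≤ ∑ j ∈ Icc M J, φ (j - N) :=
              sum_le_sum_of_subset_of_nonneg (Icc_subset_Icc le_rfl (by omega)) fun j _ _ => hφ0 _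
      rw [div_le_div_iff₀ (by positivity) (by exact_mod_cast hMp)]
      have h7 : (M : ℝ) * 2 ≤ (3 + n) * N := by exact_mod_cast (by omega : M * 2 ≤ (3 + n) * N)
      have h8 : (N : ℝ) ≤ 2 * ((top + 1 - M : ℕ) : ℝ) := by exact_mod_cast hcount
      have h9 := mul_le_mul_of_nonneg_right hsum (by positivity : (0 : ℝ) ≤ (n : ℝ) + 8)
      nlinarith [mul_le_mul_of_nonneg_left h8 hcpos.le, Nat.cast_nonneg (α := ℝ) n,
        mul_le_mul_of_nonneg_left h7 hcpos.le]
    intro i hi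
    constructor
    · by_cases h2 : i < 2 * N
      · rw [gG_eq_one _ _ h2]
        exact le_trans (min_le_left _ _) (hc ▸ min_le_left _ _)
      rw [gG_succ, if_neg h2]
      refine le_min (le_trans (min_le_left _ _) (hc ▸ min_le_left _ _)) ?_
      refine le_trans (min_le_right _ _) (step _ _ (by omega) le_rfl (grid_nonneg n).2 ?_ i ?_ ?_)
      · intro j hj hj2
        rcases Nat.eq_zero_or_pos n with rfl | hn
        · omega
        · refine le_trans (hc ▸ min_le_right _ _) (ih N J hN hJn hn _ ?_).2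
          rwa [max_eq_right (by omega)] at hj2
      · have : (2 + (n + 1)) * N = (3 + n) * N := by ring
        omega
      · have : (2 + (n + 1)) * N = (3 + n) * N := by ring
        omega
    · rw [gQ_succ]
      refine le_trans (min_le_right _ _) (step _ _ (by omega) (by omega) (grid_nonneg n).1 ?_ i ?_ ?_)
      · intro j _ hj2
        rcases le_total (2 + n) 3 with h | h
        · rw [max_eq_left h] at hj2; exact hGpre' _ hj2
        · rw [max_eq_right h] at hj2; exact hGpre _ hj2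
      · have : 2 * N ≤ (3 + n) * N := Nat.mul_le_mul_right N (by omega)
        omega
      · have : (2 + (n + 1)) * N = (3 + n) * N := by ring
        omega

end Vale.Agent.P013
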