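import Vale.Agent.P013.Sieve

/-! The induction along Rosser's recursion. -/

open Finset

noncomputable section

namespace Vale.Agent.P013

/-- Data and closure conditions for the recursion. `A` bounds the failure of the lower sieve,
`B` that of the upper sieve. -/
structure Closed (Q0 : Finset ℕ) (w lam : ℝ) (N β J : ℕ) (A B : ℕ → ℕ → ℝ) : Prop where
  ratio : RatioBound Q0 w lam
  lam_ge : 1 ≤ lam
  prime : ∀ p ∈ Q0, Nat.Prime p
  one_lt : 1 < w
  above : ∀ p ∈ Q0, w < (p : ℝ)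
  N_pos : 0 < N
  beta_ge : 2 ≤ β
  A_anti : ∀ n, Antitone (A n)
  B_anti : ∀ n, Antitone (B n)
  A_nonneg : ∀ n i, 0 ≤ A n i
  B_nonneg : ∀ n i, 0 ≤ B n i
  A_low : ∀ n i, i < β * N → 1 ≤ A n i
  lower : ∀ n i, β * N ≤ i → i ≤ J →
    (lam * ∑ j ∈ Icc i J, B n (j - N)) / i + (lam - 1) * B n (i - N) ≤ A (n + 1) i
  upper : ∀ n i, (β - 1) * N ≤ i → i ≤ J →
    (lam * ∑ j ∈ Icc i J, A n (j - N)) / i + (lam - 1) * A n (i - N) ≤ B (n + 1) i

/-- A state of the recursion: `T` is the set of primes taken so far, `Q` those still allowed,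
`D` the remaining level and `i` a grid index below all those of `Q`. -/
structure State (Q0 : Finset ℕ) (w : ℝ) (N J n : ℕ) (T Q : Finset ℕ) (D : ℝ) (i : ℕ) : Prop where
  T_sub : T ⊆ Q0
  Q_sub : Q ⊆ Q0
  lt : ∀ p ∈ Q, ∀ q ∈ T, p < q
  D_ge : 1 ≤ D
  fuel : Real.log D < n * Real.log w
  index : ∀ p ∈ Q, (i : ℝ) * Real.log p ≤ N * Real.log D
  top : (N : ℝ) * Real.log D ≤ J * Real.log w

variable {m : ℤ} {X : ℕ} {W Q0 : Finset ℕ} {w lam v e r : ℝ} {N β J : ℕ} {A B : ℕ → ℕ → ℝ}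

/-- Upper bounds in all states with fuel `n`. -/
def UpperAt (m : ℤ) (X : ℕ) (W Q0 : Finset ℕ) (w v e r : ℝ) (N β J : ℕ) (B : ℕ → ℕ → ℝ)
    (n : ℕ) : Prop :=
  ∀ T Q D i, State Q0 w N J n T Q D i → (β - 1) * N ≤ i →
    (cnt m X (∏ p ∈ T, p) (W ∪ Q) : ℝ) ≤
      X * v / ((∏ p ∈ T, p : ℕ) : ℝ) * dens Q * (1 + B n i) +
        errSum e r (X * v / ((∏ p ∈ T, p : ℕ) : ℝ)) D Q

/-- Lower bounds in all states with fuel `n`. -/
def LowerAt (m : ℤ) (X : ℕ) (W Q0 : Finset ℕ) (w v e r : ℝ) (N β J : ℕ) (A : ℕ → ℕ → ℝ)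
    (n : ℕ) : Prop :=
  ∀ T Q D i, State Q0 w N J n T Q D i → β * N ≤ i →
    X * v / ((∏ p ∈ T, p : ℕ) : ℝ) * dens Q * (1 - A n i) -
        errSum e r (X * v / ((∏ p ∈ T, p : ℕ) : ℝ)) D Q ≤
      (cnt m X (∏ p ∈ T, p) (W ∪ Q) : ℝ)

/-- The estimate at the leaves. -/
def BaseAt (m : ℤ) (X : ℕ) (W Q0 : Finset ℕ) (v e r : ℝ) : Prop :=
  ∀ T ⊆ Q0, |(cnt m X (∏ p ∈ T, p) W : ℝ) - X * v / ((∏ p ∈ T, p : ℕ) : ℝ)| ≤
    e * (X * v / ((∏ p ∈ T, p : ℕ) : ℝ)) + r

section

variable {T Q : Finset ℕ} {D : ℝ} {i n : ℕ}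

lemma State.idx_bounds (hC : Closed Q0 w lam N β J A B) (hs : State Q0 w N J n T Q D i) {p : ℕ}
    (hp : p ∈ Q) : i ≤ idx N D p ∧ idx N D p ≤ J := by
  have hpw := hC.above p (hs.Q_sub hp)
  have hw := hC.one_lt
  have hl : 0 < Real.log (p : ℝ) := Real.log_pos (by linarith)
  constructor
  · exact Nat.le_floor (by rw [le_div_iff₀ hl]; exact hs.index p hp)
  · refine Nat.floor_le_of_le ?_
    rw [div_le_iff₀ hl]
    refine hs.top.trans (mul_le_mul_of_nonneg_left ?_ (Nat.cast_nonneg J))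
    exact Real.log_le_log (by linarith) hpw.le

lemma State.coprime (hC : Closed Q0 w lam N β J A B) (hs : State Q0 w N J n T Q D i) :
    ∀ p ∈ Q, Nat.Coprime (∏ q ∈ T, q) p := fun p hp => Nat.Coprime.prod_left fun q hq =>
  (Nat.coprime_primes (hC.prime q (hs.T_sub hq)) (hC.prime p (hs.Q_sub hp))).2
    (hs.lt p hp q hq).ne'

/-- The child state at `p`, available when its index is at least `N`. -/
lemma State.child (hC : Closed Q0 w lam N β J A B) (hs : State Q0 w N J (n + 1) T Q D i) {p : ℕ}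
    (hp : p ∈ Q) (hj : N ≤ idx N D p) :
    State Q0 w N J n (insert p T) (below Q p) (D / p) (idx N D p - N) ∧
      p ≤ D ∧ (∏ q ∈ insert p T, q) = (∏ q ∈ T, q) * p := by
  have hp' := hC.prime p (hs.Q_sub hp)
  have hp1 : (1 : ℝ) < p := by exact_mod_cast hp'.one_lt
  have hl : 0 < Real.log (p : ℝ) := Real.log_pos hp1
  have hpw := hC.above p (hs.Q_sub hp)
  have hw := hC.one_lt
  have hlw : Real.log w < Real.log p := Real.log_lt_log (by linarith) hpw
  have hN : (0 : ℝ) < N := by exact_mod_cast hC.N_pos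
  have hD0 : 0 ≤ Real.log D := Real.log_nonneg hs.D_ge
  have hjf : ((idx N D p : ℕ) : ℝ) * Real.log p ≤ N * Real.log D :=
    (le_div_iff₀ hl).1 (Nat.floor_le (by positivity))
  have hj' : (N : ℝ) ≤ idx N D p := by exact_mod_cast hj
  have hpD : Real.log p ≤ Real.log D := by nlinarith
  have hpD' : (p : ℝ) ≤ D := (Real.log_le_log_iff (by linarith) (by linarith [hs.D_ge])).1 hpD
  have hlog : Real.log (D / p) = Real.log D - Real.log p :=
    Real.log_div (by linarith [hs.D_ge]) (by linarith)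
  refine ⟨⟨insert_subset (hs.Q_sub hp) hs.T_sub, (filter_subset _ _).trans hs.Q_sub, ?_,
    (one_le_div (by linarith)).2 hpD', ?_, ?_, ?_⟩, hpD', ?_⟩
  · intro q hq t ht
    simp only [below, mem_filter] at hq
    rcases mem_insert.1 ht with rfl | ht
    · exact hq.2
    · exact hs.lt q hq.1 t ht
  · have := hs.fuel
    rw [hlog]
    push_cast at this
    linarith
  · intro q hq
    simp only [below, mem_filter] at hq
    have hq0 : (0 : ℝ) < q := by exact_mod_cast (hC.prime q (hs.Q_sub hq.1)).pos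
    have hle : Real.log (q : ℝ) ≤ Real.log p := Real.log_le_log hq0 (by exact_mod_cast hq.2.le)
    rw [hlog, Nat.cast_sub hj]
    nlinarith
  · refine le_trans ?_ hs.top
    rw [hlog]
    nlinarith
  · rw [prod_insert (fun h => lt_irrefl p (hs.lt p hp p h)), mul_comm]

lemma base_cnt (hbase : BaseAt m X W Q0 v e r) (hC : Closed Q0 w lam N β J A B)
    (hs : State Q0 w N J n T Q D i) :
    (cnt m X (∏ q ∈ T, q) (W ∪ Q) : ℝ) +
      ∑ p ∈ Q, (cnt m X ((∏ q ∈ T, q) * p) (W ∪ below Q p) : ℝ) ∈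
    Set.Icc (X * v / ((∏ p ∈ T, p : ℕ) : ℝ) - (e * (X * v / ((∏ p ∈ T, p : ℕ) : ℝ)) + r))
      (X * v / ((∏ p ∈ T, p : ℕ) : ℝ) + (e * (X * v / ((∏ p ∈ T, p : ℕ) : ℝ)) + r)) := by
  rw [← cnt_buchstab _ _ Q (hs.coprime hC)]
  have := abs_le.1 (hbase T hs.T_sub)
  constructor <;> linarith

/-- One step of the lower sieve, for an arbitrary bound `R` on the layers. -/
lemma lower_step (hbase : BaseAt m X W Q0 v e r) (hC : Closed Q0 w lam N β J A B) (hv : 0 ≤ v)
    (hup : UpperAt m X W Q0 w v e r N β J B n) (hs : State Q0 w N J (n + 1) T Q D i)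
    (hi : β * N ≤ i) (R : ℝ)
    (hR : ∑ p ∈ Q, dens (below Q p) / p * B n (idx N D p - N) ≤ dens Q * R) :
    X * v / ((∏ p ∈ T, p : ℕ) : ℝ) * dens Q * (1 - R) -
        errSum e r (X * v / ((∏ p ∈ T, p : ℕ) : ℝ)) D Q ≤
      (cnt m X (∏ p ∈ T, p) (W ∪ Q) : ℝ) := by
  obtain ⟨x, hx⟩ : ∃ x : ℝ, x = X * v / ((∏ p ∈ T, p : ℕ) : ℝ) := ⟨_, rfl⟩
  have hx0 : 0 ≤ x := hx ▸ div_nonneg (mul_nonneg (Nat.cast_nonneg _) hv) (Nat.cast_nonneg _)
  have h0 := (base_cnt hbase hC hs).1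
  rw [← hx] at h0 ⊢
  have hch : ∀ p ∈ Q, (cnt m X ((∏ q ∈ T, q) * p) (W ∪ below Q p) : ℝ) ≤
      x * (dens (below Q p) / p) + x * (dens (below Q p) / p * B n (idx N D p - N)) +
        errSum e r (x / p) (D / p) (below Q p) := by
    intro p hp
    have hj := (hs.idx_bounds hC hp).1
    have h2N : 2 * N ≤ β * N := Nat.mul_le_mul_right N hC.beta_ge
    have hb1 : (β - 1) * N + N = β * N := by
      rw [← Nat.succ_mul, Nat.succ_eq_add_one, Nat.sub_add_cancel (by linarith [hC.beta_ge])]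
    obtain ⟨hst, _, hprod⟩ := hs.child hC hp (by omega)
    have h := hup _ _ _ _ hst (by omega)
    rw [hprod, Nat.cast_mul, ← div_div, ← hx] at h
    refine h.trans (le_of_eq ?_)
    ring
  have herr := errSum_eq (e := e) (r := r) (x := x) hs.D_ge Q
    fun p hp => (hC.prime p (hs.Q_sub hp)).pos
  have hsum := sum_le_sum hch
  rw [sum_add_distrib, sum_add_distrib, ← mul_sum, ← mul_sum] at hsum
  have hV := dens_eq Q
  have hR' := mul_le_mul_of_nonneg_left hR hx0
  have e1 : x * (1 - ∑ p ∈ Q, dens (below Q p) / p) = x * dens Q := by rw [← hV]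
  nlinarith [e1]

/-- One step of the upper sieve. -/
lemma upper_step (hbase : BaseAt m X W Q0 v e r) (hC : Closed Q0 w lam N β J A B) (hv : 0 ≤ v)
    (he : 0 ≤ e) (hr : 0 ≤ r)
    (hlo : LowerAt m X W Q0 w v e r N β J A n) (hs : State Q0 w N J (n + 1) T Q D i)
    (R : ℝ)
    (hR : ∑ p ∈ Q, dens (below Q p) / p * A n (idx N D p - N) ≤ dens Q * R) :
    (cnt m X (∏ p ∈ T, p) (W ∪ Q) : ℝ) ≤
      X * v / ((∏ p ∈ T, p : ℕ) : ℝ) * dens Q * (1 + R) +
        errSum e r (X * v / ((∏ p ∈ T, p : ℕ) : ℝ)) D Q := by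
  obtain ⟨x, hx⟩ : ∃ x : ℝ, x = X * v / ((∏ p ∈ T, p : ℕ) : ℝ) := ⟨_, rfl⟩
  have hx0 : 0 ≤ x := hx ▸ div_nonneg (mul_nonneg (Nat.cast_nonneg _) hv) (Nat.cast_nonneg _)
  have h0 := (base_cnt hbase hC hs).2
  rw [← hx] at h0 ⊢
  have hch : ∀ p ∈ Q, x * (dens (below Q p) / p) -
      x * (dens (below Q p) / p * A n (idx N D p - N)) -
        errSum e r (x / p) (D / p) (below Q p) ≤
      (cnt m X ((∏ q ∈ T, q) * p) (W ∪ below Q p) : ℝ) := by
    intro p hp
    have hxp : 0 ≤ x / p := div_nonneg hx0 (Nat.cast_nonneg _)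
    have hd : 0 ≤ dens (below Q p) :=
      (dens_pos fun q hq => hC.prime q (hs.Q_sub (filter_subset _ _ hq))).le
    by_cases hj : idx N D p - N < β * N
    · have h1 := hC.A_low n _ hj
      have h2 := errSum_nonneg (D := D / p) he hr hxp (below Q p)
      have h3 : (0 : ℝ) ≤ cnt m X ((∏ q ∈ T, q) * p) (W ∪ below Q p) := Nat.cast_nonneg _
      have h4 : x * (dens (below Q p) / p) * (1 - A n (idx N D p - N)) ≤ 0 :=
        mul_nonpos_of_nonneg_of_nonpos (by positivity) (by linarith)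
      nlinarith
    · have hN1 : N ≤ β * N := Nat.le_mul_of_pos_left N (by linarith [hC.beta_ge])
      obtain ⟨hst, _, hprod⟩ := hs.child hC hp (by omega)
      have h := hlo _ _ _ _ hst (by omega)
      rw [hprod, Nat.cast_mul, ← div_div, ← hx] at h
      refine le_trans (le_of_eq ?_) h
      ring
  have herr := errSum_eq (e := e) (r := r) (x := x) hs.D_ge Q
    fun p hp => (hC.prime p (hs.Q_sub hp)).pos
  have hsum := sum_le_sum hch
  rw [sum_sub_distrib, sum_sub_distrib, ← mul_sum, ← mul_sum] at hsum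
  have e1 : x * (1 - ∑ p ∈ Q, dens (below Q p) / p) = x * dens Q := by rw [← dens_eq Q]
  have hR' := mul_le_mul_of_nonneg_left hR hx0
  nlinarith [e1]

end

theorem sieve_bounds (hbase : BaseAt m X W Q0 v e r) (hC : Closed Q0 w lam N β J A B) (hv : 0 ≤ v)
    (he : 0 ≤ e) (hr : 0 ≤ r) :
    ∀ n, LowerAt m X W Q0 w v e r N β J A n ∧ UpperAt m X W Q0 w v e r N β J B n := by
  intro n
  induction n with
  | zero =>
    constructor <;>
    · intro T Q D i hs _
      have h1 := hs.fuel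
      have h2 := Real.log_nonneg hs.D_ge
      simp only [Nat.cast_zero, zero_mul] at h1
      linarith
  | succ n ih =>
    have hbN : N ≤ (β - 1) * N := Nat.le_mul_of_pos_left N (by have := hC.beta_ge; omega)
    have hbb : (β - 1) * N ≤ β * N := Nat.mul_le_mul_right N (Nat.sub_le β 1)
    have hNp := hC.N_pos
    -- both layers through the closure conditions
    have bound : ∀ (T Q : Finset ℕ) (D : ℝ) (i : ℕ), State Q0 w N J (n + 1) T Q D i → 0 < i →
        ∀ (φ : ℕ → ℝ) (C : ℝ), Antitone φ → (∀ a, 0 ≤ φ a) → 0 ≤ C →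
          (i ≤ J → (lam * ∑ j ∈ Icc i J, φ (j - N)) / i + (lam - 1) * φ (i - N) ≤ C) →
          ∑ p ∈ Q, dens (below Q p) / p * φ (idx N D p - N) ≤ dens Q * C := by
      intro T Q D i hs hi φ C hanti hφ hC0 hle
      have hV : 0 < dens Q := dens_pos fun p hp => hC.prime p (hs.Q_sub hp)
      rcases Q.eq_empty_or_nonempty with rfl | hne
      · simp only [sum_empty]; exact mul_nonneg hV.le hC0
      · obtain ⟨p, hp⟩ := hne
        have hiJ : i ≤ J := le_trans (hs.idx_bounds hC hp).1 (hs.idx_bounds hC hp).2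
        have hD1 : 1 < D := by
          rcases lt_or_eq_of_le hs.D_ge with h | h
          · exact h
          · have h1 := hs.index p hp
            rw [← h, Real.log_one, mul_zero] at h1
            have := hC.above p (hs.Q_sub hp)
            have := hC.one_lt
            have : 0 < Real.log (p : ℝ) := Real.log_pos (by linarith)
            have : (0 : ℝ) < i := by exact_mod_cast hi
            nlinarith
        refine (layer_bound hC.ratio hC.lam_ge hC.prime hC.one_lt hC.above hs.Q_sub hD1 hi hNp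
          hs.index (fun q hq => (hs.idx_bounds hC hq).2) (fun j => φ (j - N))
          (fun a b hab => hanti (Nat.sub_le_sub_right hab N)) fun a => hφ _).trans ?_
        exact mul_le_mul_of_nonneg_left (hle hiJ) hV.le
    constructor
    · intro T Q D i hs hi
      exact lower_step hbase hC hv ih.2 hs hi _ (bound T Q D i hs (by omega) (B n) _ (hC.B_anti n)
        (hC.B_nonneg n) (hC.A_nonneg _ _) fun h => hC.lower n i hi h)
    · intro T Q D i hs hi
      exact upper_step hbase hC hv he hr ih.1 hs _ (bound T Q D i hs (by omega) (A n) _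
        (hC.A_anti n) (hC.A_nonneg n) (hC.B_nonneg _ _) fun h => hC.upper n i hi h)

end Vale.Agent.P013
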