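import Mathlib

/-! Elementary Mertens estimates with error tending to zero. -/

open Finset
open scoped ArithmeticFunction.vonMangoldt

noncomputable section

namespace Vale.Agent.P013

/-- `∑_{p ≤ n} log p / p`. -/
def logSum (n : ℕ) : ℝ := ∑ p ∈ Nat.primesLE n, Real.log (p : ℝ) / p

lemma sum_log_eq (N : ℕ) :
    ∑ n ∈ Icc 1 N, Real.log n = ∑ d ∈ Icc 1 N, Λ d * ((N / d : ℕ) : ℝ) := by
  rw [sum_congr rfl fun n _ => (ArithmeticFunction.vonMangoldt_sum (n := n)).symm]
  rw [sum_comm' (t' := Icc 1 N) (s' := fun d => (Icc 1 N).filter fun n => d ∣ n)]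
  · refine sum_congr rfl fun d _ => ?_
    rw [sum_const, nsmul_eq_mul, mul_comm]
    congr 2
    rw [← Nat.Ioc_filter_dvd_card_eq_div]
    congr 1
  · intro n d
    simp only [mem_Icc, Nat.mem_divisors, mem_filter]
    constructor
    · rintro ⟨⟨h1, h2⟩, h3, _⟩
      have := Nat.le_of_dvd (by omega) h3
      have := Nat.pos_of_dvd_of_pos h3 (by omega)
      exact ⟨⟨⟨h1, h2⟩, h3⟩, by omega, by omega⟩
    · rintro ⟨⟨⟨h1, h2⟩, h3⟩, _, _⟩
      exact ⟨⟨h1, h2⟩, h3, by omega⟩

lemma log_factorial_ge (N : ℕ) :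
    (N : ℝ) * Real.log N - N ≤ ∑ n ∈ Icc 1 N, Real.log n := by
  induction N with
  | zero => simp
  | succ m ih =>
    rw [sum_Icc_succ_top (by omega)]
    rcases Nat.eq_zero_or_pos m with rfl | hm
    · simp
    have hm' : (0 : ℝ) < m := by exact_mod_cast hm
    have h := Real.log_le_sub_one_of_pos (div_pos (by positivity : (0 : ℝ) < m + 1) hm')
    rw [Real.log_div (by positivity) hm'.ne'] at h
    have h2 := mul_le_mul_of_nonneg_left h hm'.le
    rw [show (m : ℝ) * (((m : ℝ) + 1) / m - 1) = 1 by field_simp; ring] at h2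
    push_cast
    nlinarith

lemma prime_power_sum_le : ∃ K : ℝ, ∀ N : ℕ,
    ∑ d ∈ Icc 1 N, Λ d / (d : ℝ) - logSum N ≤ K := by
  have hs : Summable fun n : ℕ => 8 / (n : ℝ) ^ (3 / 2 : ℝ) := by
    have := (Real.summable_one_div_nat_rpow (p := (3 / 2 : ℝ))).mpr (by norm_num)
    exact (this.mul_left 8).congr fun n => by ring
  refine ⟨∑' n : ℕ, 8 / (n : ℝ) ^ (3 / 2 : ℝ), fun N => ?_⟩
  have key : ∀ p ∈ Nat.primesLE N, ∀ j : ℕ,
      ∑ i ∈ range j, Real.log (p : ℝ) / (p : ℝ) ^ (i + 2) ≤ 8 / (p : ℝ) ^ (3 / 2 : ℝ) := by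
    intro p hp j
    have hp2 : (2 : ℝ) ≤ p := by exact_mod_cast (Nat.mem_primesLE.1 hp).2.two_le
    have hlog : Real.log p ≤ 2 * (p : ℝ) ^ (1 / 2 : ℝ) := by
      have := Real.log_le_rpow_div (x := (p : ℝ)) (by linarith) (ε := 1 / 2) (by norm_num)
      linarith
    have hgeom : ∑ i ∈ range j, (1 / (p : ℝ)) ^ i ≤ 2 := by
      have h : (1 / (p : ℝ)) ≤ 1 / 2 := one_div_le_one_div_of_le (by norm_num) hp2
      calc ∑ i ∈ range j, (1 / (p : ℝ)) ^ i ≤ ∑ i ∈ range j, (1 / 2 : ℝ) ^ i := by gcongr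
        _ ≤ 2 := sum_geometric_two_le j
    have hp0 : (0 : ℝ) < p := by linarith
    calc ∑ i ∈ range j, Real.log (p : ℝ) / (p : ℝ) ^ (i + 2)
        = Real.log p / (p : ℝ) ^ 2 * ∑ i ∈ range j, (1 / (p : ℝ)) ^ i := by
          rw [mul_sum]; refine sum_congr rfl fun i _ => ?_
          rw [pow_add, one_div_pow]; field_simp
      _ ≤ Real.log p / (p : ℝ) ^ 2 * 2 := by
          refine mul_le_mul_of_nonneg_left hgeom (div_nonneg (Real.log_nonneg (by linarith)) ?_)
          positivity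
      _ ≤ 2 * (p : ℝ) ^ (1 / 2 : ℝ) / (p : ℝ) ^ 2 * 2 := by gcongr
      _ = 4 * ((p : ℝ) ^ (1 / 2 : ℝ) / (p : ℝ) ^ (2 : ℝ)) := by rw [Real.rpow_two]; ring
      _ = 4 / (p : ℝ) ^ (3 / 2 : ℝ) := by
          rw [← Real.rpow_sub hp0, show (1 / 2 : ℝ) - 2 = -(3 / 2) by norm_num,
            Real.rpow_neg hp0.le, ← div_eq_mul_inv]
      _ ≤ 8 / (p : ℝ) ^ (3 / 2 : ℝ) := by gcongr; norm_num
  have hmain : ∑ d ∈ Icc 1 N, Λ d / (d : ℝ) ≤
      ∑ p ∈ Nat.primesLE N, (Real.log (p : ℝ) / p +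
        ∑ i ∈ range N, Real.log (p : ℝ) / (p : ℝ) ^ (i + 2)) := by
    rw [← sum_filter_of_ne (s := Icc 1 N) (p := IsPrimePow)]
    swap
    · intro d _ h
      by_contra hd
      exact h (by simp [ArithmeticFunction.vonMangoldt_eq_zero_iff.mpr hd])
    have : ∀ p ∈ Nat.primesLE N, Real.log (p : ℝ) / p +
        ∑ i ∈ range N, Real.log (p : ℝ) / (p : ℝ) ^ (i + 2) =
        ∑ i ∈ range (N + 1), Real.log (p : ℝ) / (p : ℝ) ^ (i + 1) := by
      intro p _
      rw [sum_range_succ', add_comm]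
      simp
    rw [sum_congr rfl this, ← sum_product']
    have e : ∀ x ∈ Nat.primesLE N ×ˢ range (N + 1),
        Real.log (x.1 : ℝ) / (x.1 : ℝ) ^ (x.2 + 1) =
          Λ (x.1 ^ (x.2 + 1)) / ((x.1 ^ (x.2 + 1) : ℕ) : ℝ) := by
      intro x hx
      rw [ArithmeticFunction.vonMangoldt_apply_pow (by omega),
        ArithmeticFunction.vonMangoldt_apply_prime
          (Nat.mem_primesLE.1 (mem_product.1 hx).1).2]
      push_cast; rfl
    rw [sum_congr rfl e]
    have hinj : Set.InjOn (fun x : ℕ × ℕ => x.1 ^ (x.2 + 1))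
        (Nat.primesLE N ×ˢ range (N + 1) : Finset (ℕ × ℕ)) := by
      intro x hx y hy h
      have hx' := (Nat.mem_primesLE.1 (mem_product.1 hx).1).2
      have hy' := (Nat.mem_primesLE.1 (mem_product.1 hy).1).2
      obtain ⟨h1, h2⟩ := Nat.Prime.pow_inj hx' hy' h
      exact Prod.ext h1 h2
    rw [← sum_image (f := fun d : ℕ => Λ d / (d : ℝ)) hinj]
    refine sum_le_sum_of_subset_of_nonneg (fun d hd => ?_) fun d _ _ => ?_
    · simp only [mem_filter, mem_Icc] at hd
      obtain ⟨⟨h1, h2⟩, hpp⟩ := hd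
      obtain ⟨p, j, hp, hj, rfl⟩ := (isPrimePow_nat_iff d).1 hpp
      obtain ⟨i, rfl⟩ : ∃ i, j = i + 1 := ⟨j - 1, by omega⟩
      refine mem_image.2 ⟨(p, i), mem_product.2 ⟨Nat.mem_primesLE.2 ⟨?_, hp⟩, ?_⟩, rfl⟩
      · exact le_trans (Nat.le_self_pow (by omega) p) h2
      · have := Nat.lt_pow_self (n := i + 1) hp.one_lt
        exact mem_range.2 (by omega)
    · exact div_nonneg ArithmeticFunction.vonMangoldt_nonneg (Nat.cast_nonneg _)
  rw [sum_add_distrib] at hmain
  have h2 : ∑ p ∈ Nat.primesLE N, ∑ i ∈ range N, Real.log (p : ℝ) / (p : ℝ) ^ (i + 2) ≤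
      ∑ p ∈ Nat.primesLE N, 8 / (p : ℝ) ^ (3 / 2 : ℝ) := sum_le_sum fun p hp => key p hp N
  have h3 := hs.sum_le_tsum (Nat.primesLE N) (fun n _ => by positivity)
  unfold logSum
  linarith

lemma mertens_first : ∃ K : ℝ, 0 ≤ K ∧ ∀ N : ℕ, 1 ≤ N →
    |logSum N - Real.log N| ≤ K := by
  obtain ⟨K2, hK2⟩ := prime_power_sum_le
  refine ⟨max (Real.log 4 + 4) (1 + |K2|), le_trans (by positivity) (le_max_right _ _), fun N hN => ?_⟩
  have hN0 : (0 : ℝ) < N := by exact_mod_cast hN
  have hswap := sum_log_eq N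
  have hup : ∑ n ∈ Icc 1 N, Real.log n ≤ N * Real.log N := by
    refine (sum_le_card_nsmul _ _ (Real.log N) fun n hn => ?_).trans (by simp)
    simp only [mem_Icc] at hn
    exact Real.log_le_log (by exact_mod_cast hn.1) (by exact_mod_cast hn.2)
  have hlow : ∀ d ∈ Icc 1 N, (N : ℝ) * (Λ d / d) - Λ d ≤ Λ d * ((N / d : ℕ) : ℝ) := by
    intro d hd
    simp only [mem_Icc] at hd
    have hd0 : (0 : ℝ) < d := by exact_mod_cast hd.1
    have h := Nat.lt_mul_div_succ N (show 0 < d by omega)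
    have h' : (N : ℝ) < d * (((N / d : ℕ) : ℝ) + 1) := by exact_mod_cast h
    have h'' : (N : ℝ) / d - 1 ≤ ((N / d : ℕ) : ℝ) := by
      rw [sub_le_iff_le_add, div_le_iff₀ hd0]
      linarith
    calc (N : ℝ) * (Λ d / d) - Λ d = Λ d * ((N : ℝ) / d - 1) := by ring
      _ ≤ _ := mul_le_mul_of_nonneg_left h'' ArithmeticFunction.vonMangoldt_nonneg
  have hhigh : ∀ d ∈ Icc 1 N, Λ d * ((N / d : ℕ) : ℝ) ≤ (N : ℝ) * (Λ d / d) := by
    intro d _
    calc Λ d * ((N / d : ℕ) : ℝ) ≤ Λ d * ((N : ℝ) / d) :=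
          mul_le_mul_of_nonneg_left Nat.cast_div_le ArithmeticFunction.vonMangoldt_nonneg
      _ = _ := by ring
  have hpsi : ∑ d ∈ Icc 1 N, Λ d ≤ (Real.log 4 + 4) * N := by
    have := Chebyshev.psi_le_const_mul_self hN0.le
    rw [Chebyshev.psi, Nat.floor_natCast] at this
    rwa [show Icc 1 N = Ioc 0 N from Icc_add_one_left_eq_Ioc (a := 0) (b := N)]
  have h1 := sum_le_sum hlow
  rw [sum_sub_distrib, ← mul_sum, ← hswap] at h1
  have h2 := sum_le_sum hhigh
  rw [← mul_sum, ← hswap] at h2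
  have hA : ∑ d ∈ Icc 1 N, Λ d / (d : ℝ) ≤ Real.log N + (Real.log 4 + 4) :=
    le_of_mul_le_mul_left (by linarith) hN0
  have hB : Real.log N - 1 ≤ ∑ d ∈ Icc 1 N, Λ d / (d : ℝ) :=
    le_of_mul_le_mul_left (by linarith [log_factorial_ge N]) hN0
  have hC : logSum N ≤ ∑ d ∈ Icc 1 N, Λ d / (d : ℝ) := by
    have hsub : Nat.primesLE N ⊆ Icc 1 N := fun p hp => by
      rw [Nat.mem_primesLE] at hp
      exact mem_Icc.2 ⟨hp.2.one_le, hp.1⟩
    refine le_of_eq_of_le ?_ (sum_le_sum_of_subset_of_nonneg hsub fun d _ _ => ?_)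
    · exact sum_congr rfl fun p hp => by
        rw [ArithmeticFunction.vonMangoldt_apply_prime (Nat.mem_primesLE.1 hp).2]
    · exact div_nonneg ArithmeticFunction.vonMangoldt_nonneg (Nat.cast_nonneg _)
  rw [abs_le]
  have := le_max_left (Real.log 4 + 4) (1 + |K2|)
  have := le_max_right (Real.log 4 + 4) (1 + |K2|)
  have := le_abs_self K2
  constructor <;> linarith [hK2 N]

/-- Mertens' second theorem on a range, with error `O(1 / log a)`. -/
theorem sum_inv_range : ∃ K : ℝ, 0 ≤ K ∧ ∀ a b : ℕ, 2 ≤ a → a ≤ b →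
    ∑ p ∈ (Ioc a b).filter Nat.Prime, (p : ℝ)⁻¹ ≤
      Real.log (Real.log b / Real.log a) + K / Real.log a := by
  obtain ⟨K, hK0, hK⟩ := mertens_first
  refine ⟨2 * K, by linarith, fun a b ha hab => ?_⟩
  have hla : 0 < Real.log (a : ℝ) := Real.log_pos (by exact_mod_cast (by omega : 1 < a))
  have hU : ∀ n : ℕ, 1 ≤ n → logSum n ≤ Real.log n + K := fun n hn => by
    linarith [(abs_le.1 (hK n hn)).2]
  have inv : ∀ n : ℕ, a ≤ n → ∑ p ∈ (Ioc a n).filter Nat.Prime, (p : ℝ)⁻¹ ≤
      Real.log (Real.log n / Real.log a) + (logSum n - Real.log n - K) / Real.log n +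
        2 * K / Real.log a := by
    intro n hn
    induction n, hn using Nat.le_induction with
    | base =>
      simp only [Ioc_self, filter_empty, sum_empty, div_self hla.ne', Real.log_one, zero_add]
      rw [← add_div]
      refine div_nonneg ?_ hla.le
      linarith [(abs_le.1 (hK a (by omega))).1]
    | succ n hn ih =>
      have hln : 0 < Real.log n := Real.log_pos (by exact_mod_cast (by omega : 1 < n))
      have hlt : Real.log n ≤ Real.log ((n + 1 : ℕ) : ℝ) :=
        Real.log_le_log (by exact_mod_cast (by omega : 0 < n)) (by exact_mod_cast n.le_succ)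
      set l := Real.log (n : ℝ)
      set l' := Real.log ((n + 1 : ℕ) : ℝ)
      have hl' : 0 < l' := by linarith
      have hD : 0 ≤ l + K - logSum n := by linarith [hU n (by omega)]
      have hlog : 1 - l / l' ≤ Real.log (l' / Real.log a) - Real.log (l / Real.log a) := by
        rw [Real.log_div hl'.ne' hla.ne', Real.log_div hln.ne' hla.ne']
        have := Real.log_le_sub_one_of_pos (div_pos hln hl')
        rw [Real.log_div hln.ne' hl'.ne'] at this
        linarith
      have hS : ∑ p ∈ (Ioc a (n + 1)).filter Nat.Prime, (p : ℝ)⁻¹ =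
          ∑ p ∈ (Ioc a n).filter Nat.Prime, (p : ℝ)⁻¹ + (logSum (n + 1) - logSum n) / l' := by
        have e1 : Ioc a (n + 1) = insert (n + 1) (Ioc a n) := by
          ext t; simp only [mem_Ioc, mem_insert]; omega
        unfold logSum
        by_cases hp : (n + 1).Prime
        · have e2 : Nat.primesLE (n + 1) = insert (n + 1) (Nat.primesLE n) := by
            ext t; simp only [Nat.mem_primesLE, mem_insert]
            constructor
            · rintro ⟨h1, h2⟩
              by_cases h : t = n + 1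
              · exact Or.inl h
              · exact Or.inr ⟨by omega, h2⟩
            · rintro (rfl | ⟨h1, h2⟩)
              · exact ⟨le_rfl, hp⟩
              · exact ⟨by omega, h2⟩
          rw [e1, filter_insert, if_pos hp, sum_insert (by simp)]
          rw [e2, sum_insert (by simp [Nat.mem_primesLE]), add_sub_cancel_right, add_comm]
          congr 1
          rw [div_right_comm, div_self hl'.ne', one_div]
        · have e2 : Nat.primesLE (n + 1) = Nat.primesLE n := by
            ext t; simp only [Nat.mem_primesLE]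
            constructor
            · rintro ⟨h1, h2⟩
              exact ⟨by by_contra h; exact hp ((show t = n + 1 by omega) ▸ h2), h2⟩
            · rintro ⟨h1, h2⟩; exact ⟨by omega, h2⟩
          rw [e1, filter_insert, if_neg hp]
          simp [e2]
      rw [hS]
      have e3 : (logSum (n + 1) - l' - K) / l' =
          (logSum n - l - K) / l + (logSum (n + 1) - logSum n) / l' + (l / l' - 1)
            + (l + K - logSum n) * (1 / l - 1 / l') := by
        field_simp
        ring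
      have : 0 ≤ (l + K - logSum n) * (1 / l - 1 / l') :=
        mul_nonneg hD (sub_nonneg.2 (one_div_le_one_div_of_le hln hlt))
      rw [e3]
      linarith
  refine (inv b hab).trans ?_
  have : (logSum b - Real.log b - K) / Real.log b ≤ 0 :=
    div_nonpos_of_nonpos_of_nonneg (by linarith [hU b (by omega)]) (Real.log_natCast_nonneg _)
  linarith

end Vale.Agent.P013
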