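import Mathlib

/-!
A combinatorial sieve (Rosser's recursion) for an interval of integers, with the main terms bounded
through sequences on the grid `i / N`.
-/

open Finset

noncomputable section

namespace Vale.Agent.P013

/-- Members of `[m, m + X)` divisible by `d` and by no element of `W`. -/
def cnt (m : ℤ) (X d : ℕ) (W : Finset ℕ) : ℕ :=
  ((range X).filter fun i : ℕ => (d : ℤ) ∣ m + (i : ℤ) ∧ ∀ p ∈ W, ¬ (p : ℤ) ∣ m + (i : ℤ)).card

/-- `∏ (1 - 1/p)`. -/
def dens (Q : Finset ℕ) : ℝ := ∏ p ∈ Q, (1 - 1 / (p : ℝ))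

/-- The members below `p`. -/
def below (Q : Finset ℕ) (p : ℕ) : Finset ℕ := Q.filter (· < p)

/-- The accumulated error of the recursion. -/
def errSum (e r x D : ℝ) (Q : Finset ℕ) : ℝ :=
  ∑ T ∈ Q.powerset.filter (fun T => ((∏ p ∈ T, p : ℕ) : ℝ) ≤ D),
    (e * x / ((∏ p ∈ T, p : ℕ) : ℝ) + r)

variable {m : ℤ} {X : ℕ}

lemma below_insert_max {Q : Finset ℕ} {a : ℕ} (ha : ∀ p ∈ Q, p < a) :
    below (insert a Q) a = Q ∧ ∀ p ∈ Q, below (insert a Q) p = below Q p := by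
  constructor
  · ext x; simp only [below, mem_filter, mem_insert]
    exact ⟨fun h => h.1.resolve_left h.2.ne, fun h => ⟨Or.inr h, ha x h⟩⟩
  · intro p hp
    ext x; simp only [below, mem_filter, mem_insert]
    exact ⟨fun h => ⟨h.1.resolve_left (fun e => by subst e; linarith [ha p hp, h.2]), h.2⟩,
      fun h => ⟨Or.inr h.1, h.2⟩⟩

lemma sum_insert_max {Q : Finset ℕ} {a : ℕ} (ha : ∀ p ∈ Q, p < a) (f : ℕ → Finset ℕ → ℝ) :
    ∑ p ∈ insert a Q, f p (below (insert a Q) p) = f a Q + ∑ p ∈ Q, f p (below Q p) := by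
  rw [sum_insert (fun h => lt_irrefl a (ha a h)), (below_insert_max ha).1]
  exact congrArg _ (sum_congr rfl fun p hp => by rw [(below_insert_max ha).2 p hp])

lemma cnt_insert (d p : ℕ) (W : Finset ℕ) (hcop : Nat.Coprime d p) :
    (cnt m X d W : ℝ) = cnt m X d (insert p W) + cnt m X (d * p) W := by
  rw [← Nat.cast_add]
  congr 1
  unfold cnt
  rw [← card_filter_add_card_filter_not
    (s := (range X).filter fun i : ℕ => (d : ℤ) ∣ m + (i : ℤ) ∧ ∀ q ∈ W, ¬ (q : ℤ) ∣ m + (i : ℤ))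
    (fun i : ℕ => ¬ (p : ℤ) ∣ m + (i : ℤ)), filter_filter, filter_filter]
  congr 1 <;> congr 1
  · ext i
    simp only [mem_filter, mem_insert, forall_eq_or_imp]
    tauto
  · ext i
    simp only [mem_filter, not_not, Nat.cast_mul]
    constructor
    · rintro ⟨h1, ⟨h2, h3⟩, h4⟩
      exact ⟨h1, (Int.isCoprime_iff_nat_coprime.2 (by simpa using hcop)).mul_dvd h2 h4, h3⟩
    · rintro ⟨h1, h2, h3⟩
      exact ⟨h1, ⟨dvd_trans (Dvd.intro _ rfl) h2, h3⟩, dvd_trans (Dvd.intro_left _ rfl) h2⟩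

lemma cnt_buchstab (d : ℕ) (W : Finset ℕ) :
    ∀ Q : Finset ℕ, (∀ p ∈ Q, Nat.Coprime d p) → (cnt m X d W : ℝ) =
      cnt m X d (W ∪ Q) + ∑ p ∈ Q, (cnt m X (d * p) (W ∪ below Q p) : ℝ) := by
  intro Q
  induction Q using Finset.induction_on_max with
  | empty => simp
  | insert a Q ha ih =>
    intro hcop
    rw [ih fun p hp => hcop p (mem_insert_of_mem hp),
      cnt_insert d a (W ∪ Q) (hcop a (mem_insert_self a Q)),
      sum_insert_max ha fun p B => (cnt m X (d * p) (W ∪ B) : ℝ), union_insert]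
    ring

lemma dens_eq : ∀ Q : Finset ℕ, dens Q = 1 - ∑ p ∈ Q, dens (below Q p) / p := by
  intro Q
  induction Q using Finset.induction_on_max with
  | empty => simp [dens]
  | insert a Q ha ih =>
    rw [sum_insert_max ha fun p B => dens B / p, dens,
      prod_insert fun h => lt_irrefl a (ha a h), ← dens, sub_mul, one_mul, one_div_mul_eq_div]
    linarith [ih]

lemma dens_pos {Q : Finset ℕ} (h : ∀ p ∈ Q, Nat.Prime p) : 0 < dens Q := by
  refine prod_pos fun p hp => ?_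
  have : (2 : ℝ) ≤ p := by exact_mod_cast (h p hp).two_le
  have := one_div_le_one_div_of_le (by norm_num : (0 : ℝ) < 2) this
  linarith

lemma dens_le_one {Q : Finset ℕ} (h : ∀ p ∈ Q, Nat.Prime p) : dens Q ≤ 1 := by
  rw [dens_eq]
  have : 0 ≤ ∑ p ∈ Q, dens (below Q p) / p := sum_nonneg fun p _ =>
    div_nonneg (dens_pos fun q hq => h q (filter_subset _ _ hq)).le (Nat.cast_nonneg _)
  linarith

lemma sum_above (Q : Finset ℕ) (y : ℝ) :
    ∑ p ∈ Q.filter (fun p : ℕ => y < (p : ℝ)), dens (below Q p) / (p : ℝ) =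
      dens (Q.filter fun p : ℕ => (p : ℝ) ≤ y) - dens Q := by
  rw [dens_eq Q, dens_eq (Q.filter fun p : ℕ => (p : ℝ) ≤ y),
    ← sum_filter_add_sum_filter_not Q (fun p : ℕ => (p : ℝ) ≤ y)]
  have e : ∀ p ∈ Q.filter (fun p : ℕ => (p : ℝ) ≤ y),
      below (Q.filter fun p : ℕ => (p : ℝ) ≤ y) p = below Q p := by
    intro p hp
    ext x
    simp only [below, mem_filter] at hp ⊢
    refine ⟨fun h => ⟨h.1.1, h.2⟩, fun h => ⟨⟨h.1, le_trans ?_ hp.2⟩, h.2⟩⟩
    exact_mod_cast h.2.le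
  have e2 : ∑ p ∈ Q.filter (fun p : ℕ => (p : ℝ) ≤ y),
      dens (below (Q.filter fun p : ℕ => (p : ℝ) ≤ y) p) / (p : ℝ) =
      ∑ p ∈ Q.filter (fun p : ℕ => (p : ℝ) ≤ y), dens (below Q p) / (p : ℝ) :=
    sum_congr rfl fun p hp => by rw [e p hp]
  rw [e2]
  simp only [not_le]
  ring

lemma errSum_nonneg {e r x D : ℝ} (he : 0 ≤ e) (hr : 0 ≤ r) (hx : 0 ≤ x) (Q : Finset ℕ) :
    0 ≤ errSum e r x D Q :=
  sum_nonneg fun T _ => add_nonneg (div_nonneg (mul_nonneg he hx) (Nat.cast_nonneg _)) hr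

lemma errSum_eq {e r x D : ℝ} (hD : 1 ≤ D) : ∀ Q : Finset ℕ, (∀ p ∈ Q, 0 < p) →
    errSum e r x D Q = (e * x + r) + ∑ p ∈ Q, errSum e r (x / p) (D / p) (below Q p) := by
  intro Q
  induction Q using Finset.induction_on_max with
  | empty => simp [errSum, filter_singleton, hD]
  | insert a Q ha ih =>
    intro hpos
    have ha0 : (0 : ℝ) < a := by exact_mod_cast hpos a (mem_insert_self a Q)
    have hna : a ∉ Q := fun h => lt_irrefl a (ha a h)
    have key : errSum e r x D (insert a Q) =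
        errSum e r x D Q + errSum e r (x / a) (D / a) Q := by
      unfold errSum
      rw [powerset_insert, filter_union, sum_union]
      · congr 1
        rw [filter_image, sum_image]
        · refine sum_congr ?_ fun T hT => ?_
          · refine filter_congr fun T hT => ?_
            rw [mem_powerset] at hT
            rw [prod_insert (fun h => hna (hT h)), Nat.cast_mul, le_div_iff₀' ha0]
          · simp only [mem_filter, mem_powerset] at hT
            rw [prod_insert (fun h => hna (hT.1 h)), Nat.cast_mul, ← div_div]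
            ring
        · intro S hS T hT hST
          simp only [coe_filter, Set.mem_ofPred_eq, mem_powerset] at hS hT
          rw [← erase_insert (fun h => hna (hS.1 h)), ← erase_insert (fun h => hna (hT.1 h))]
          rw [hST]
      · rw [disjoint_left]
        intro T hT hT'
        simp only [mem_filter, mem_powerset, mem_image] at hT hT'
        obtain ⟨⟨S, _, rfl⟩, _⟩ := hT'
        exact hna (hT.1 (mem_insert_self a S))
    rw [key, sum_insert_max ha fun p B => errSum e r (x / p) (D / p) B,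
      ih fun p hp => hpos p (mem_insert_of_mem hp)]
    ring

lemma errSum_le {e r x D : ℝ} (he : 0 ≤ e) (hr : 0 ≤ r) (hx : 0 ≤ x) (hD : 0 ≤ D) (Q : Finset ℕ)
    (hQ : ∀ p ∈ Q, Nat.Prime p) :
    errSum e r x D Q ≤ e * x * ∏ p ∈ Q, (1 + 1 / (p : ℝ)) + r * D := by
  unfold errSum
  rw [sum_add_distrib]
  refine add_le_add ?_ ?_
  · rw [prod_one_add, mul_sum]
    refine (sum_le_sum_of_subset_of_nonneg (filter_subset _ _) fun T _ _ =>
      div_nonneg (mul_nonneg he hx) (Nat.cast_nonneg _)).trans (le_of_eq ?_)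
    refine sum_congr rfl fun T _ => ?_
    simp [div_eq_mul_inv]
  · rw [sum_const, nsmul_eq_mul, mul_comm]
    refine mul_le_mul_of_nonneg_left ?_ hr
    refine le_trans ?_ (Nat.floor_le hD)
    norm_cast
    refine (card_le_card_of_injOn (fun T => ∏ p ∈ T, p) (t := Icc 1 ⌊D⌋₊) (fun T hT => ?_)
      fun S hS T hT h => ?_).trans_eq (by rw [Nat.card_Icc, Nat.add_sub_cancel])
    · simp only [coe_filter, Set.mem_ofPred_eq, mem_powerset] at hT
      exact mem_Icc.2 ⟨prod_pos fun p hp => (hQ p (hT.1 hp)).pos, Nat.le_floor hT.2⟩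
    · simp only [coe_filter, Set.mem_ofPred_eq, mem_powerset] at hS hT
      have e1 := Nat.primeFactors_prod fun p hp => hQ p (hS.1 hp)
      have e2 := Nat.primeFactors_prod fun p hp => hQ p (hT.1 hp)
      simp only at h
      rw [← e1, h, e2]

lemma cnt_single (d : ℕ) (hd : 0 < d) : |(cnt m X d ∅ : ℝ) - (X : ℝ) / d| ≤ 1 := by
  have h1 : (cnt m X d ∅ : ℤ) = ((Ico m (m + X)).filter fun x => (d : ℤ) ∣ x).card := by
    norm_cast
    unfold cnt
    refine card_bij (fun i _ => m + (i : ℤ)) (fun i hi => ?_) (fun a _ b _ h => by omega)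
      fun b hb => ?_
    · simp only [mem_filter, mem_range] at hi
      simp only [mem_filter, mem_Ico]
      exact ⟨⟨by omega, by omega⟩, hi.2.1⟩
    · simp only [mem_filter, mem_Ico] at hb
      refine ⟨(b - m).toNat, ?_, by omega⟩
      simp only [mem_filter, mem_range]
      refine ⟨by omega, ?_, by simp⟩
      rw [show m + ((b - m).toNat : ℤ) = b by omega]
      exact hb.2
  rw [Int.Ico_filter_dvd_card _ _ (by exact_mod_cast hd)] at h1
  have hd' : (0 : ℚ) < d := by exact_mod_cast hd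
  have hb : ((m + X : ℤ) : ℚ) / d = (m : ℚ) / d + (X : ℚ) / d := by push_cast; ring
  have l1 := Int.le_ceil (((m + X : ℤ) : ℚ) / d)
  have l2 := Int.ceil_lt_add_one (((m + X : ℤ) : ℚ) / d)
  have l3 := Int.le_ceil ((m : ℚ) / d)
  have l4 := Int.ceil_lt_add_one ((m : ℚ) / d)
  have hmono : ⌈(m : ℚ) / d⌉ ≤ ⌈((m + X : ℤ) : ℚ) / d⌉ := Int.ceil_le_ceil (by
    rw [hb]; exact le_add_of_nonneg_right (by positivity))
  rw [show ((d : ℤ) : ℚ) = (d : ℚ) by norm_cast, max_eq_left (by omega)] at h1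
  have h2 : ((cnt m X d ∅ : ℕ) : ℚ) =
      (⌈((m + X : ℤ) : ℚ) / d⌉ : ℚ) - (⌈(m : ℚ) / d⌉ : ℚ) := by exact_mod_cast h1
  have h3 : |((cnt m X d ∅ : ℕ) : ℚ) - (X : ℚ) / d| ≤ 1 := by
    rw [abs_le, h2]; constructor <;> linarith
  have h4 : ((|((cnt m X d ∅ : ℕ) : ℚ) - (X : ℚ) / d| : ℚ) : ℝ) ≤ ((1 : ℚ) : ℝ) :=
    Rat.cast_le.2 h3
  push_cast at h4
  exact h4

lemma cnt_legendre : ∀ (W : Finset ℕ) (d : ℕ), 0 < d → (∀ p ∈ W, Nat.Prime p) →
    (∀ p ∈ W, Nat.Coprime d p) →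
    |(cnt m X d W : ℝ) - (X : ℝ) / d * dens W| ≤ 2 ^ W.card := by
  intro W
  induction W using Finset.induction with
  | empty => intro d hd _ _; simpa [dens] using cnt_single (m := m) (X := X) d hd
  | insert p W hp ih =>
    intro d hd hW hc
    have hpp := hW p (mem_insert_self p W)
    have h1 := ih d hd (fun q hq => hW q (mem_insert_of_mem hq))
      fun q hq => hc q (mem_insert_of_mem hq)
    have h2 := ih (d * p) (Nat.mul_pos hd hpp.pos) (fun q hq => hW q (mem_insert_of_mem hq))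
      fun q hq => Nat.Coprime.mul_left (hc q (mem_insert_of_mem hq))
        ((Nat.coprime_primes hpp (hW q (mem_insert_of_mem hq))).2 fun e => hp (e ▸ hq))
    have e := cnt_insert (m := m) (X := X) d p W (hc p (mem_insert_self p W))
    rw [card_insert_of_notMem hp, pow_succ]
    have e2 : (X : ℝ) / d * dens (insert p W) =
        (X : ℝ) / d * dens W - (X : ℝ) / ((d * p : ℕ) : ℝ) * dens W := by
      rw [dens, prod_insert hp, ← dens]; push_cast; rw [← div_div]; ring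
    rw [abs_le] at *
    constructor <;> linarith

/-- The ratio hypothesis (sieve dimension one). -/
def RatioBound (Q0 : Finset ℕ) (w lam : ℝ) : Prop :=
  ∀ x y : ℝ, w ≤ x → x ≤ y →
    ∏ p ∈ Q0.filter (fun p : ℕ => x < (p : ℝ) ∧ (p : ℝ) ≤ y), (1 - 1 / (p : ℝ))⁻¹ ≤
      lam * (Real.log y / Real.log x)

/-- The grid index of `p` at level `D`. -/
def idx (N : ℕ) (D : ℝ) (p : ℕ) : ℕ := ⌊(N : ℝ) * Real.log D / Real.log p⌋₊

lemma abel_sum (φ : ℕ → ℝ) {j J : ℕ} (h : j ≤ J) :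
    ∑ a ∈ Icc j J, (φ a - if a < J then φ (a + 1) else 0) = φ j := by
  induction h using Nat.decreasingInduction with
  | self => simp
  | of_succ k hk ih =>
    rw [← add_sum_Ioc_eq_sum_Icc (by omega), ← Icc_add_one_left_eq_Ioc, ih, if_pos (by omega)]
    ring

lemma layer_gen (φ : ℕ → ℝ) (hanti : Antitone φ) (hφ : ∀ a, 0 ≤ φ a) (i J : ℕ) (S : Finset ℕ)
    (w : ℕ → ℝ) (j : ℕ → ℕ) (hj : ∀ p ∈ S, i ≤ j p ∧ j p ≤ J) (V : ℝ) (Wb : ℕ → ℝ)
    (hW : ∀ a ∈ Icc i J, ∑ p ∈ S.filter (fun p => j p ≤ a), w p ≤ V * Wb a) :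
    ∑ p ∈ S, w p * φ (j p) ≤
      V * ∑ a ∈ Icc i J, (φ a - if a < J then φ (a + 1) else 0) * Wb a := by
  have h1 : ∑ p ∈ S, w p * φ (j p) =
      ∑ a ∈ Icc i J, (φ a - if a < J then φ (a + 1) else 0) *
        ∑ p ∈ S.filter (fun p => j p ≤ a), w p := by
    calc ∑ p ∈ S, w p * φ (j p)
        = ∑ p ∈ S, ∑ a ∈ Icc (j p) J, w p * (φ a - if a < J then φ (a + 1) else 0) :=
          sum_congr rfl fun p hp => by rw [← mul_sum, abel_sum φ (hj p hp).2]
      _ = ∑ a ∈ Icc i J, ∑ p ∈ S.filter (fun p => j p ≤ a),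
            w p * (φ a - if a < J then φ (a + 1) else 0) := by
          refine sum_comm' fun p a => ?_
          simp only [mem_Icc, mem_filter]
          constructor
          · rintro ⟨h1, h2, h3⟩; exact ⟨⟨h1, h2⟩, le_trans (hj p h1).1 h2, h3⟩
          · rintro ⟨⟨h1, h2⟩, _, h3⟩; exact ⟨h1, h2, h3⟩
      _ = _ := sum_congr rfl fun a _ => by rw [← sum_mul, mul_comm]
  rw [h1, mul_sum]
  refine sum_le_sum fun a ha => ?_
  have hd : 0 ≤ φ a - if a < J then φ (a + 1) else 0 := by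
    split_ifs
    · linarith [hanti (Nat.le_succ a)]
    · simpa using hφ a
  calc (φ a - if a < J then φ (a + 1) else 0) * ∑ p ∈ S.filter (fun p => j p ≤ a), w p
      ≤ (φ a - if a < J then φ (a + 1) else 0) * (V * Wb a) :=
        mul_le_mul_of_nonneg_left (hW a ha) hd
    _ = _ := by ring

lemma abel_lin (φ : ℕ → ℝ) {i J : ℕ} (h : i ≤ J) :
    ∑ a ∈ Icc i J, (φ a - if a < J then φ (a + 1) else 0) * ((a : ℝ) + 1) =
      (i : ℝ) * φ i + ∑ a ∈ Icc i J, φ a := by
  induction h using Nat.decreasingInduction with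
  | self => simp; ring
  | of_succ k hk ih =>
    rw [← add_sum_Ioc_eq_sum_Icc (by omega), ← Icc_add_one_left_eq_Ioc, ih,
      ← add_sum_Ioc_eq_sum_Icc (f := φ) (by omega : k ≤ J), ← Icc_add_one_left_eq_Ioc,
      if_pos (by omega)]
    push_cast
    ring

variable {Q0 : Finset ℕ} {w lam : ℝ} {N J : ℕ}

lemma ratio_Q' (hQ0 : ∀ p ∈ Q0, Nat.Prime p)
    {Q : Finset ℕ} (hsub : Q ⊆ Q0) {y z : ℝ} (_hyz : y ≤ z)
    (hz : ∀ p ∈ Q, (p : ℝ) ≤ z) :
    dens (Q.filter fun p : ℕ => (p : ℝ) ≤ y) ≤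
      dens Q * (∏ p ∈ Q0.filter (fun p : ℕ => y < (p : ℝ) ∧ (p : ℝ) ≤ z),
        (1 - 1 / (p : ℝ))⁻¹) := by
  have hV : 0 < dens Q := dens_pos fun p hp => hQ0 p (hsub hp)
  have e : dens (Q.filter fun p : ℕ => (p : ℝ) ≤ y) =
      dens Q * ∏ p ∈ Q.filter (fun p : ℕ => ¬ (p : ℝ) ≤ y), (1 - 1 / (p : ℝ))⁻¹ := by
    rw [dens, dens, ← prod_filter_mul_prod_filter_not Q (fun p : ℕ => (p : ℝ) ≤ y),
      prod_inv_distrib, mul_assoc, mul_inv_cancel₀, mul_one]
    exact (prod_pos fun p hp => by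
      have : (2 : ℝ) ≤ p := by exact_mod_cast (hQ0 p (hsub (filter_subset _ _ hp))).two_le
      have := one_div_le_one_div_of_le (by norm_num : (0 : ℝ) < 2) this
      linarith).ne'
  have h1 : dens (Q.filter fun p : ℕ => (p : ℝ) ≤ y) ≤
      dens Q * (∏ p ∈ Q0.filter (fun p : ℕ => y < (p : ℝ) ∧ (p : ℝ) ≤ z),
        (1 - 1 / (p : ℝ))⁻¹) := by
    rw [e]
    refine mul_le_mul_of_nonneg_left ?_ hV.le
    refine prod_le_prod_of_subset_of_one_le (fun p hp => ?_) (fun p hp => ?_) fun p hp _ => ?_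
    · simp only [mem_filter, not_le] at hp ⊢
      exact ⟨hsub hp.1, hp.2, hz p hp.1⟩
    · have h2 : (2 : ℝ) ≤ p := by exact_mod_cast (hQ0 p (hsub (filter_subset _ _ hp))).two_le
      have := one_div_le_one_div_of_le (by norm_num : (0 : ℝ) < 2) h2
      exact inv_nonneg.2 (by linarith)
    · have h2 : (2 : ℝ) ≤ p := by exact_mod_cast (hQ0 p (filter_subset _ _ hp)).two_le
      have h3 := one_div_le_one_div_of_le (by norm_num : (0 : ℝ) < 2) h2
      have h4 : 0 ≤ 1 / (p : ℝ) := by positivity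
      exact (one_le_inv₀ (by linarith)).2 (by linarith)
  exact h1

/-- Points with index at most `a` lie above `D ^ (N/(a+1))`; a version with a local ratio. -/
lemma weight_loc (hQ0 : ∀ p ∈ Q0, Nat.Prime p)
    (hw : 1 < w) (hwp : ∀ p ∈ Q0, w < (p : ℝ)) {Q : Finset ℕ} (hsub : Q ⊆ Q0) {D : ℝ}
    (hD : 1 < D) {i a : ℕ} (hi : 0 < i) (hN : 0 < N) (hlam0 : 0 ≤ lam)
    (hloc : ∀ y z : ℝ, w ≤ y → y ≤ z → (i : ℝ) * Real.log z = N * Real.log D →
      Real.log y = max ((N : ℝ) * Real.log D / ((a : ℝ) + 1)) (Real.log w) →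
      ∏ p ∈ Q0.filter (fun p : ℕ => y < (p : ℝ) ∧ (p : ℝ) ≤ z), (1 - 1 / (p : ℝ))⁻¹ ≤
        lam * (Real.log z / Real.log y))
    (hside : 1 ≤ lam * (((a : ℝ) + 1) / i) ∨
      max ((N : ℝ) * Real.log D / ((a : ℝ) + 1)) (Real.log w) < N * Real.log D / i)
    (hiQ : ∀ p ∈ Q, (i : ℝ) * Real.log p ≤ N * Real.log D) :
    ∑ p ∈ Q.filter (fun p => idx N D p ≤ a), dens (below Q p) / p ≤
      dens Q * (lam * (((a : ℝ) + 1) / i) - 1) := by
  obtain ⟨x, hx⟩ : ∃ x : ℝ, x = Real.exp (N * Real.log D / ((a : ℝ) + 1)) := ⟨_, rfl⟩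
  obtain ⟨z, hz⟩ : ∃ z : ℝ, z = Real.exp (N * Real.log D / i) := ⟨_, rfl⟩
  have hlD : 0 < Real.log D := Real.log_pos hD
  have hi' : (0 : ℝ) < i := by exact_mod_cast hi
  have hN' : (0 : ℝ) < N := by exact_mod_cast hN
  have hV : 0 < dens Q := dens_pos fun p hp => hQ0 p (hsub hp)
  have hwnn : ∀ p ∈ Q, 0 ≤ dens (below Q p) / (p : ℝ) := fun p _ =>
    div_nonneg (dens_pos fun q hq => hQ0 q (hsub (filter_subset _ _ hq))).le (Nat.cast_nonneg _)
  have hsubset : Q.filter (fun p => idx N D p ≤ a) ⊆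
      Q.filter (fun p : ℕ => max x w < (p : ℝ)) := by
    intro p hp
    simp only [mem_filter] at hp ⊢
    refine ⟨hp.1, max_lt ?_ (hwp p (hsub hp.1))⟩
    have hp1 : (1 : ℝ) < p := lt_trans hw (hwp p (hsub hp.1))
    have h1 := Nat.lt_floor_add_one ((N : ℝ) * Real.log D / Real.log p)
    have h2 : ((idx N D p : ℕ) : ℝ) ≤ a := by exact_mod_cast hp.2
    unfold idx at h2
    rw [hx, ← Real.exp_log (by linarith : (0 : ℝ) < p)]
    refine Real.exp_lt_exp.2 ?_
    rw [div_lt_iff₀ (by positivity)]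
    have h3 : (N : ℝ) * Real.log D / Real.log p < (a : ℝ) + 1 := by linarith
    rw [div_lt_iff₀ (Real.log_pos hp1)] at h3
    linarith
  refine (sum_le_sum_of_subset_of_nonneg hsubset fun p hp _ =>
    hwnn p (filter_subset _ _ hp)).trans ?_
  have hzQ : ∀ p ∈ Q, (p : ℝ) ≤ z := by
    intro p hp
    have hp0 : (0 : ℝ) < p := by exact_mod_cast (hQ0 p (hsub hp)).pos
    rw [hz, ← Real.exp_log hp0]
    refine Real.exp_le_exp.2 ?_
    rw [le_div_iff₀ hi']
    linarith [hiQ p hp]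
  have hlmax : Real.log (max x w) =
      max ((N : ℝ) * Real.log D / ((a : ℝ) + 1)) (Real.log w) := by
    rcases le_total x w with hxw | hxw
    · rw [max_eq_right hxw, max_eq_right]
      rw [← Real.log_exp ((N : ℝ) * Real.log D / ((a : ℝ) + 1)), ← hx]
      exact Real.log_le_log (hx ▸ Real.exp_pos _) hxw
    · rw [max_eq_left hxw, max_eq_left, hx, Real.log_exp]
      rw [← Real.log_exp ((N : ℝ) * Real.log D / ((a : ℝ) + 1)), ← hx]
      exact Real.log_le_log (by linarith) hxw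
  rcases le_total (max x w) z with h | h
  · rw [sum_above]
    have hzi : (i : ℝ) * Real.log z = N * Real.log D := by
      rw [hz, Real.log_exp]; field_simp
    have h2 := (ratio_Q' hQ0 hsub h hzQ).trans (mul_le_mul_of_nonneg_left
      (hloc _ z (le_max_right x w) h hzi hlmax) hV.le)
    have hlogx : 0 < Real.log x := by rw [hx, Real.log_exp]; positivity
    have hmax : Real.log x ≤ Real.log (max x w) :=
      Real.log_le_log (hx ▸ Real.exp_pos _) (le_max_left _ _)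
    have h3 : Real.log z / Real.log (max x w) ≤ ((a : ℝ) + 1) / i := by
      refine (div_le_div_of_nonneg_left ?_ hlogx hmax).trans (le_of_eq ?_)
      · rw [hz, Real.log_exp]; positivity
      · rw [hx, hz, Real.log_exp, Real.log_exp]; field_simp
    have h4 := mul_le_mul_of_nonneg_left h3 hlam0
    nlinarith [mul_le_mul_of_nonneg_left h4 hV.le]
  · rcases hside with hs | hs
    · rw [sum_eq_zero fun p hp => ?_]
      · exact mul_nonneg hV.le (by linarith)
      · simp only [mem_filter] at hp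
        exact absurd (lt_of_le_of_lt h hp.2) (not_lt.2 (hzQ p hp.1))
    · rw [← hlmax] at hs
      have := Real.log_le_log (hz ▸ Real.exp_pos _) h
      rw [hz, Real.log_exp] at this

      linarith

/-- Points with index at most `a` lie above `D ^ (N/(a+1))`. -/
lemma weight_le (hlam : RatioBound Q0 w lam) (hlam1 : 1 ≤ lam) (hQ0 : ∀ p ∈ Q0, Nat.Prime p)
    (hw : 1 < w) (hwp : ∀ p ∈ Q0, w < (p : ℝ)) {Q : Finset ℕ} (hsub : Q ⊆ Q0) {D : ℝ}
    (hD : 1 < D) {i a : ℕ} (hi : 0 < i) (hN : 0 < N) (hia : i ≤ a)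
    (hiQ : ∀ p ∈ Q, (i : ℝ) * Real.log p ≤ N * Real.log D) :
    ∑ p ∈ Q.filter (fun p => idx N D p ≤ a), dens (below Q p) / p ≤
      dens Q * (lam * (((a : ℝ) + 1) / i) - 1) := by
  refine weight_loc hQ0 hw hwp hsub hD hi hN (by linarith) (fun y z hy hyz _ _ => hlam y z hy hyz)
    (Or.inl ?_) hiQ
  have hi' : (0 : ℝ) < i := by exact_mod_cast hi
  have : 1 ≤ ((a : ℝ) + 1) / i :=
    (one_le_div hi').2 (by exact_mod_cast Nat.le_succ_of_le hia)
  nlinarith

/-- The layer bound: a weighted sum is at most the perturbed step operator. -/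
lemma layer_bound (hlam : RatioBound Q0 w lam) (hlam1 : 1 ≤ lam) (hQ0 : ∀ p ∈ Q0, Nat.Prime p)
    (hw : 1 < w) (hwp : ∀ p ∈ Q0, w < (p : ℝ)) {Q : Finset ℕ} (hsub : Q ⊆ Q0) {D : ℝ}
    (hD : 1 < D) {i : ℕ} (hi : 0 < i) (hN : 0 < N)
    (hiQ : ∀ p ∈ Q, (i : ℝ) * Real.log p ≤ N * Real.log D) (hJ : ∀ p ∈ Q, idx N D p ≤ J)
    (φ : ℕ → ℝ) (hanti : Antitone φ) (hφ : ∀ a, 0 ≤ φ a) :
    ∑ p ∈ Q, dens (below Q p) / p * φ (idx N D p) ≤
      dens Q * ((lam * ∑ a ∈ Icc i J, φ a) / i + (lam - 1) * φ i) := by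
  have hidx : ∀ p ∈ Q, i ≤ idx N D p := by
    intro p hp
    have hp1 : (1 : ℝ) < p := lt_trans hw (hwp p (hsub hp))
    exact Nat.le_floor (by rw [le_div_iff₀ (Real.log_pos hp1)]; exact hiQ p hp)
  have hV : 0 < dens Q := dens_pos fun p hp => hQ0 p (hsub hp)
  by_cases hiJ : i ≤ J
  · refine (layer_gen φ hanti hφ i J Q _ (idx N D) (fun p hp => ⟨hidx p hp, hJ p hp⟩) (dens Q)
      (fun a => lam * (((a : ℝ) + 1) / i) - 1) fun a ha =>
        weight_le hlam hlam1 hQ0 hw hwp hsub hD hi hN (mem_Icc.1 ha).1 hiQ).trans (le_of_eq ?_)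
    congr 1
    have e : ∀ a : ℕ, (φ a - if a < J then φ (a + 1) else 0) *
        (lam * (((a : ℝ) + 1) / i) - 1) =
        lam / i * ((φ a - if a < J then φ (a + 1) else 0) * ((a : ℝ) + 1)) -
          (φ a - if a < J then φ (a + 1) else 0) := fun a => by ring
    rw [sum_congr rfl fun a _ => e a, sum_sub_distrib, ← mul_sum, abel_lin φ hiJ, abel_sum φ hiJ]
    have hi' : (i : ℝ) ≠ 0 := Nat.cast_ne_zero.2 hi.ne'
    field_simp
    ring
  · have : Q = ∅ := eq_empty_of_forall_notMem fun p hp => hiJ (le_trans (hidx p hp) (hJ p hp))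
    subst this
    simp only [sum_empty]
    refine mul_nonneg hV.le (add_nonneg ?_ (mul_nonneg (by linarith) (hφ i)))
    exact div_nonneg (mul_nonneg (by linarith) (sum_nonneg fun a _ => hφ a)) (Nat.cast_nonneg i)

end Vale.Agent.P013
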