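import Vale.Agent.P013.Induction
import Vale.Agent.P013.Grid
import Vale.Agent.P013.Mertens

/-! The small primes, the window with its gain, and the ratio hypothesis. -/

open Finset

noncomputable section

namespace Vale.Agent.P013

/-- The primes in `(x, y]`. -/
def primesIn (x y : ℝ) : Finset ℕ :=
  (range (⌊y⌋₊ + 1)).filter fun p => p.Prime ∧ x < (p : ℝ)

lemma mem_primesIn {x y : ℝ} (hy : 0 ≤ y) {p : ℕ} :
    p ∈ primesIn x y ↔ p.Prime ∧ x < (p : ℝ) ∧ (p : ℝ) ≤ y := by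
  simp only [primesIn, mem_filter, mem_range, Nat.lt_succ_iff, Nat.le_floor_iff hy]
  tauto

lemma inv_factor_pos {p : ℕ} (hp : p.Prime) : 0 < 1 - 1 / (p : ℝ) := by
  have : (2 : ℝ) ≤ p := by exact_mod_cast hp.two_le
  have := one_div_le_one_div_of_le (by norm_num : (0 : ℝ) < 2) this
  linarith

lemma one_le_inv_factor {p : ℕ} (hp : p.Prime) : 1 ≤ (1 - 1 / (p : ℝ))⁻¹ :=
  (one_le_inv₀ (inv_factor_pos hp)).2 (by
    have : 0 ≤ 1 / (p : ℝ) := by positivity
    linarith)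

lemma telescope_le (a : ℕ) (ha : 1 ≤ a) : ∀ b, a ≤ b →
    ∑ p ∈ Ioc a b, (1 / ((p : ℝ) - 1) - 1 / p) ≤ 1 / (a : ℝ) := by
  intro b hb
  have key : ∑ p ∈ Ioc a b, (1 / ((p : ℝ) - 1) - 1 / p) = 1 / (a : ℝ) - 1 / b := by
    induction b, hb using Nat.le_induction with
    | base => simp
    | succ n hn ih =>
      rw [sum_Ioc_succ_top hn, ih]
      push_cast
      ring
  rw [key]
  have : 0 ≤ 1 / (b : ℝ) := by positivity
  linarith

/-- Sieve dimension one, with any `lam > 1`, for all large primes. -/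
theorem ratio_all (lam : ℝ) (hlam : 1 < lam) : ∃ z0 : ℝ, 4 ≤ z0 ∧ ∀ x y : ℝ, z0 ≤ x → x ≤ y →
    ∏ p ∈ primesIn x y, (1 - 1 / (p : ℝ))⁻¹ ≤ lam * (Real.log y / Real.log x) := by
  obtain ⟨K, hK0, hK⟩ := sum_inv_range
  have hll : 0 < Real.log lam := Real.log_pos hlam
  obtain ⟨Z, hZ⟩ : ∃ Z, Z = (Real.log 2 + K + 1) / Real.log lam := ⟨_, rfl⟩
  refine ⟨Real.exp Z + 4, by linarith [Real.exp_pos Z], fun x y hx hxy => ?_⟩
  obtain ⟨a, ha⟩ : ∃ a : ℕ, a = ⌊x⌋₊ := ⟨_, rfl⟩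
  obtain ⟨b, hb⟩ : ∃ b : ℕ, b = ⌊y⌋₊ := ⟨_, rfl⟩
  have hx4 : 4 ≤ x := by linarith [Real.exp_pos Z]
  have ha4 : 4 ≤ a := ha ▸ Nat.le_floor (by exact_mod_cast hx4)
  have hab : a ≤ b := ha ▸ hb ▸ Nat.floor_le_floor hxy
  have hxa : x < (a : ℝ) + 1 := ha ▸ Nat.lt_floor_add_one x
  have hax : (a : ℝ) ≤ x := ha ▸ Nat.floor_le (by linarith)
  have hby : (b : ℝ) ≤ y := hb ▸ Nat.floor_le (by linarith)
  have ha' : (4 : ℝ) ≤ a := by exact_mod_cast ha4
  have hla : 0 < Real.log (a : ℝ) := Real.log_pos (by linarith)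
  have haZ : Z ≤ Real.log a := by
    rw [← Real.log_exp Z]
    exact Real.log_le_log (Real.exp_pos Z) (by linarith)
  have hlx : 0 < Real.log x := Real.log_pos (by linarith)
  have hlxa : Real.log x ≤ Real.log a + Real.log 2 := by
    rw [← Real.log_mul (by linarith) (by norm_num)]
    exact Real.log_le_log (by linarith) (by linarith)
  have hset : primesIn x y ⊆ (Ioc a b).filter Nat.Prime := by
    intro p hp
    rw [mem_primesIn (by linarith)] at hp
    simp only [mem_filter, mem_Ioc]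
    exact ⟨⟨ha ▸ (Nat.floor_lt (by linarith)).2 hp.2.1, hb ▸ Nat.le_floor hp.2.2⟩, hp.1⟩
  have h1 : ∏ p ∈ primesIn x y, (1 - 1 / (p : ℝ))⁻¹ ≤
      Real.exp (∑ p ∈ (Ioc a b).filter Nat.Prime, 1 / ((p : ℝ) - 1)) := by
    rw [Real.exp_sum]
    refine le_trans (prod_le_prod (fun p hp => ?_) fun p hp => ?_)
      (prod_le_prod_of_subset_of_one_le hset (fun p _ => (Real.exp_pos _).le) fun p hp _ => ?_)
    · exact inv_nonneg.2 (inv_factor_pos ((mem_primesIn (by linarith)).1 hp).1).le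
    · have hp2 : (2 : ℝ) ≤ p := by
        exact_mod_cast ((mem_primesIn (by linarith)).1 hp).1.two_le
      refine le_trans (le_of_eq ?_) (Real.add_one_le_exp _)
      have : (p : ℝ) - 1 ≠ 0 := by linarith
      rw [one_sub_div (by linarith), inv_div]
      field_simp
      ring
    · refine Real.one_le_exp (div_nonneg zero_le_one ?_)
      have : (2 : ℝ) ≤ p := by exact_mod_cast (mem_filter.1 hp).2.two_le
      linarith
  have h2 : ∑ p ∈ (Ioc a b).filter Nat.Prime, 1 / ((p : ℝ) - 1) ≤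
      Real.log (Real.log b / Real.log a) + K / Real.log a + 1 / Real.log a := by
    have h3 := telescope_le a (by omega) b hab
    have h4 : ∑ p ∈ (Ioc a b).filter Nat.Prime, (1 / ((p : ℝ) - 1) - 1 / p) ≤
        ∑ p ∈ Ioc a b, (1 / ((p : ℝ) - 1) - 1 / p) := by
      refine sum_le_sum_of_subset_of_nonneg (filter_subset _ _) fun p hp _ => ?_
      have : (4 : ℝ) < p := lt_of_le_of_lt ha' (by exact_mod_cast (mem_Ioc.1 hp).1)
      exact sub_nonneg.2 (one_div_le_one_div_of_le (by linarith) (by linarith))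
    rw [sum_sub_distrib] at h4
    have h5 : 1 / (a : ℝ) ≤ 1 / Real.log a := by
      refine one_div_le_one_div_of_le hla ?_
      linarith [Real.log_le_sub_one_of_pos (by linarith : (0 : ℝ) < a)]
    have h6 := hK a b (by omega) hab
    simp only [one_div] at h3 h4 h5 ⊢
    linarith
  refine h1.trans ((Real.exp_le_exp.2 h2).trans ?_)
  have hlb : Real.log a ≤ Real.log b := Real.log_le_log (by linarith) (by exact_mod_cast hab)
  rw [add_assoc, Real.exp_add, Real.exp_log (div_pos (by linarith) hla)]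
  have hlyb : Real.log b ≤ Real.log y := Real.log_le_log (by linarith [(Nat.cast_le (α := ℝ)).2 hab]) hby
  have h7 : Real.exp (K / Real.log a + 1 / Real.log a) * (Real.log x / Real.log a) ≤ lam := by
    have h8 : Real.log x / Real.log a ≤ Real.exp (Real.log 2 / Real.log a) := by
      refine le_trans ?_ (Real.add_one_le_exp _)
      rw [div_add_one hla.ne']
      exact div_le_div_of_nonneg_right (by linarith) hla.le
    calc Real.exp (K / Real.log a + 1 / Real.log a) * (Real.log x / Real.log a)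
        ≤ Real.exp (K / Real.log a + 1 / Real.log a) * Real.exp (Real.log 2 / Real.log a) :=
          mul_le_mul_of_nonneg_left h8 (Real.exp_pos _).le
      _ = Real.exp ((Real.log 2 + K + 1) / Real.log a) := by rw [← Real.exp_add]; congr 1; ring
      _ ≤ Real.exp (Real.log lam) := by
          refine Real.exp_le_exp.2 ?_
          rw [div_le_iff₀ hla]
          rw [hZ, div_le_iff₀ hll] at haZ
          linarith
      _ = lam := Real.exp_log (by linarith)
  have h9 : Real.log b / Real.log a * Real.exp (K / Real.log a + 1 / Real.log a) =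
      (Real.log b / Real.log x) *
        (Real.exp (K / Real.log a + 1 / Real.log a) * (Real.log x / Real.log a)) := by
    field_simp
  rw [h9, mul_comm lam]
  exact mul_le_mul (div_le_div_of_nonneg_right hlyb hlx.le) h7
    (mul_nonneg (Real.exp_pos _).le (div_nonneg hlx.le hla.le)) (div_nonneg (by linarith) hlx.le)

lemma ratio_of_all {lam z0 w : ℝ}
    (h : ∀ x y : ℝ, z0 ≤ x → x ≤ y →
      ∏ p ∈ primesIn x y, (1 - 1 / (p : ℝ))⁻¹ ≤ lam * (Real.log y / Real.log x))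
    (hw : z0 ≤ w) (hw0 : 0 ≤ w) (Q0 : Finset ℕ) (hQ0 : ∀ p ∈ Q0, Nat.Prime p) :
    RatioBound Q0 w lam := by
  intro x y hx hxy
  refine le_trans ?_ (h x y (hw.trans hx) hxy)
  refine prod_le_prod_of_subset_of_one_le (fun p hp => ?_)
    (fun p hp => inv_nonneg.2 (inv_factor_pos (hQ0 p (filter_subset _ _ hp))).le)
    fun p hp _ => one_le_inv_factor ((mem_primesIn (by linarith)).1 hp).1
  simp only [mem_filter] at hp
  exact (mem_primesIn (by linarith)).2 ⟨hQ0 p hp.1, hp.2⟩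

/-- Upper failure function for small primes. -/
def flB (_ i : ℕ) : ℝ := 3 * Real.exp (40 - (i : ℝ))

/-- Lower failure function for small primes. -/
def flA (_ i : ℕ) : ℝ := min 1 (3 * Real.exp (40 - (i : ℝ)))

lemma geom_tail (J : ℕ) : ∀ i, ∑ j ∈ Icc i J, 3 * Real.exp (40 - ((j - 1 : ℕ) : ℝ)) ≤
    2 * (3 * Real.exp (40 - ((i - 1 : ℕ) : ℝ))) + 3 * Real.exp 40 * (if i = 0 then 1 else 0) := by
  have main : ∀ i : ℕ, ∑ j ∈ Icc (i + 1) J, 3 * Real.exp (40 - ((j - 1 : ℕ) : ℝ)) ≤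
      2 * (3 * Real.exp (40 - (i : ℝ))) := by
    intro i
    by_cases h : i ≤ J
    · induction h using Nat.decreasingInduction with
      | self => rw [Icc_eq_empty (by omega), sum_empty]; positivity
      | of_succ k hk ih =>
        rw [← add_sum_Ioc_eq_sum_Icc (by omega), ← Icc_add_one_left_eq_Ioc]
        have e : Real.exp (40 - ((k + 1 : ℕ) : ℝ)) * 2 ≤ Real.exp (40 - (k : ℝ)) := by
          rw [show (40 : ℝ) - k = (40 - ((k + 1 : ℕ) : ℝ)) + 1 by push_cast; ring, Real.exp_add]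
          refine mul_le_mul_of_nonneg_left ?_ (Real.exp_pos _).le
          linarith [Real.add_one_le_exp (1 : ℝ)]
        simp only [Nat.add_sub_cancel] at *
        linarith
    · rw [Icc_eq_empty (by omega), sum_empty]; positivity
  intro i
  rcases Nat.eq_zero_or_pos i with rfl | hi
  · rw [← add_sum_Ioc_eq_sum_Icc (Nat.zero_le J), ← Icc_add_one_left_eq_Ioc]
    have := main 0
    simp only [Nat.zero_sub, Nat.cast_zero, sub_zero, zero_add, if_true, mul_one] at *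
    linarith
  · have := main (i - 1)
    rw [Nat.sub_add_cancel hi] at this
    rw [if_neg (by omega), mul_zero, add_zero]
    exact this

lemma fl_step {lam : ℝ} (hlam : 1 ≤ lam) (hlam' : lam ≤ 1 + 1 / 100) (J i : ℕ) (hi : 39 ≤ i) :
    (lam * ∑ j ∈ Icc i J, flB 0 (j - 1)) / i + (lam - 1) * flB 0 (i - 1) ≤
      1 / 5 * flB 0 i := by
  have h1 : ∑ j ∈ Icc i J, flB 0 (j - 1) ≤ 2 * flB 0 (i - 1) := by
    have := geom_tail J i
    rw [if_neg (by omega), mul_zero, add_zero] at this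
    exact this
  have hg : flB 0 (i - 1) = Real.exp 1 * flB 0 i := by
    unfold flB
    rw [mul_left_comm, ← Real.exp_add, Nat.cast_sub (by omega)]
    congr 2
    push_cast
    ring
  have hg0 : 0 ≤ flB 0 i := by unfold flB; positivity
  have hg1 : 0 ≤ flB 0 (i - 1) := by unfold flB; positivity
  have he : Real.exp 1 ≤ 3 := by linarith [Real.exp_one_lt_d9]
  have hi' : (39 : ℝ) ≤ i := by exact_mod_cast hi
  have h2 : (lam * ∑ j ∈ Icc i J, flB 0 (j - 1)) / i ≤ (1 + 1 / 100) * (2 * flB 0 (i - 1)) / 39 := by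
    refine div_le_div₀ (by positivity) ?_ (by norm_num) hi'
    exact mul_le_mul hlam' h1 (sum_nonneg fun j _ => by unfold flB; positivity) (by norm_num)
  have h3 : (lam - 1) * flB 0 (i - 1) ≤ 1 / 100 * flB 0 (i - 1) :=
    mul_le_mul_of_nonneg_right (by linarith) hg1
  have h4 := mul_le_mul_of_nonneg_right he hg0
  rw [← hg] at h4
  linarith

lemma flA_le (n i : ℕ) : flA n i ≤ flB 0 i := min_le_right _ _

lemma fl_closed {lam w : ℝ} {Q0 : Finset ℕ} (hlam : 1 ≤ lam) (hlam' : lam ≤ 1 + 1 / 100)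
    (hr : RatioBound Q0 w lam) (hp : ∀ p ∈ Q0, Nat.Prime p) (hw : 1 < w)
    (hwp : ∀ p ∈ Q0, w < (p : ℝ)) (J : ℕ) : Closed Q0 w lam 1 40 J flA flB where
  ratio := hr
  lam_ge := hlam
  prime := hp
  one_lt := hw
  above := hwp
  N_pos := one_pos
  beta_ge := by norm_num
  A_anti _ := fun i j hij => min_le_min le_rfl (mul_le_mul_of_nonneg_left
    (Real.exp_le_exp.2 (by linarith [(Nat.cast_le (α := ℝ)).2 hij])) (by norm_num))
  B_anti _ := fun i j hij => mul_le_mul_of_nonneg_left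
    (Real.exp_le_exp.2 (by linarith [(Nat.cast_le (α := ℝ)).2 hij])) (by norm_num)
  A_nonneg _ _ := le_min zero_le_one (by positivity)
  B_nonneg _ _ := by unfold flB; positivity
  A_low n i hi := by
    refine le_min le_rfl ?_
    have : (i : ℝ) + 1 ≤ 40 := by exact_mod_cast (by omega : i + 1 ≤ 40)
    have := Real.add_one_le_exp (40 - (i : ℝ))
    nlinarith
  lower n i hi hiJ := by
    have h := fl_step hlam hlam' J i (by omega)
    refine le_trans h (le_min ?_ ?_)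
    · unfold flB
      have : Real.exp (40 - (i : ℝ)) ≤ 1 := by
        rw [Real.exp_le_one_iff]
        have : (40 : ℝ) ≤ i := by exact_mod_cast (by omega : 40 ≤ i)
        linarith
      linarith
    · have : 0 ≤ flB 0 i := by unfold flB; positivity
      show 1 / 5 * flB 0 i ≤ flB 0 i
      linarith
  upper n i hi hiJ := by
    have h := fl_step hlam hlam' J i (by omega)
    have h0 : 0 ≤ flB 0 i := by unfold flB; positivity
    refine le_trans (add_le_add ?_ ?_) (le_trans h (by show 1 / 5 * flB 0 i ≤ flB 0 i; linarith))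
    · exact div_le_div_of_nonneg_right (mul_le_mul_of_nonneg_left
        (sum_le_sum fun j _ => flA_le n _) (by linarith)) (Nat.cast_nonneg i)
    · exact mul_le_mul_of_nonneg_left (flA_le n _) (by linarith)

/-- Sieving by the small primes: relative error `3 e^(40 - σ)`. -/
theorem fl_stage {m : ℤ} {X : ℕ} {W0 Q0 T Q : Finset ℕ} {lam z0 y : ℝ} {σ : ℕ}
    (hlam : 1 ≤ lam) (hlam' : lam ≤ 1 + 1 / 100) (hr : RatioBound Q0 z0 lam) (hz0 : 1 < z0)
    (hy : z0 ≤ y) (hp : ∀ p ∈ Q0, Nat.Prime p) (hw : ∀ p ∈ Q0, z0 < (p : ℝ))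
    (hW0p : ∀ p ∈ W0, Nat.Prime p) (hW0 : ∀ p ∈ W0, (p : ℝ) ≤ z0)
    (hT : T ⊆ Q0) (hQ : Q ⊆ Q0) (hlt : ∀ p ∈ Q, ∀ q ∈ T, p < q) (hQy : ∀ p ∈ Q, (p : ℝ) ≤ y)
    (hσ : 40 ≤ σ) :
    |(cnt m X (∏ p ∈ T, p) (W0 ∪ Q) : ℝ) -
        X * dens W0 / ((∏ p ∈ T, p : ℕ) : ℝ) * dens Q| ≤
      3 * Real.exp (40 - (σ : ℝ)) * (X * dens W0 / ((∏ p ∈ T, p : ℕ) : ℝ) * dens Q) +
        (2 : ℝ) ^ W0.card * Real.exp (σ * Real.log y) := by
  obtain ⟨J, hJ⟩ : ∃ J : ℕ, J = ⌈(σ : ℝ) * Real.log y / Real.log z0⌉₊ + 1 := ⟨_, rfl⟩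
  obtain ⟨D, hD⟩ : ∃ D : ℝ, D = Real.exp (σ * Real.log y) := ⟨_, rfl⟩
  have hly : 0 ≤ Real.log y := Real.log_nonneg (by linarith)
  have hlz : 0 < Real.log z0 := Real.log_pos hz0
  have hC := fl_closed hlam hlam' hr hp hz0 hw J
  have hbase : BaseAt m X W0 Q0 (dens W0) 0 ((2 : ℝ) ^ W0.card) := by
    intro T' hT'
    rw [zero_mul, zero_add]
    have h := cnt_legendre (m := m) (X := X) W0 (∏ p ∈ T', p)
      (prod_pos fun p hp' => (hp p (hT' hp')).pos) hW0p fun q hq => Nat.Coprime.prod_left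
        fun p hp' => (Nat.coprime_primes (hp p (hT' hp')) (hW0p q hq)).2 fun e => by
          subst e
          linarith [hw p (hT' hp'), hW0 p hq]
    rwa [div_mul_eq_mul_div] at h
  have hlogD : Real.log D = σ * Real.log y := by rw [hD, Real.log_exp]
  have htop : (σ : ℝ) * Real.log y < J * Real.log z0 := by
    have := Nat.le_ceil ((σ : ℝ) * Real.log y / Real.log z0)
    rw [div_le_iff₀ hlz] at this
    rw [hJ]; push_cast
    nlinarith
  have hs : State Q0 z0 1 J J T Q D σ :=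
    { T_sub := hT
      Q_sub := hQ
      lt := hlt
      D_ge := hD ▸ Real.one_le_exp (by positivity)
      fuel := by rw [hlogD]; exact htop
      index := fun p hp' => by
        rw [hlogD, Nat.cast_one, one_mul]
        exact mul_le_mul_of_nonneg_left (Real.log_le_log
          (by exact_mod_cast (hp p (hQ hp')).pos) (hQy p hp')) (Nat.cast_nonneg σ)
      top := by rw [hlogD, Nat.cast_one, one_mul]; exact htop.le }
  have hv : 0 ≤ dens W0 := (dens_pos hW0p).le
  obtain ⟨hlo, hup⟩ := sieve_bounds hbase hC hv le_rfl (by positivity) J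
  have h1 := hlo T Q D σ hs (by omega)
  have h2 := hup T Q D σ hs (by omega)
  have h0 : 0 ≤ X * dens W0 / ((∏ p ∈ T, p : ℕ) : ℝ) :=
    div_nonneg (mul_nonneg (Nat.cast_nonneg _) hv) (Nat.cast_nonneg _)
  have hV : 0 ≤ dens Q := (dens_pos fun p hp' => hp p (hQ hp')).le
  have he := errSum_le (x := X * dens W0 / ((∏ p ∈ T, p : ℕ) : ℝ)) (D := D) le_rfl
    (by positivity : (0 : ℝ) ≤ 2 ^ W0.card) h0 (hD ▸ (Real.exp_pos _).le) Q
    fun p hp' => hp p (hQ hp')
  rw [zero_mul, zero_mul, zero_add] at he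
  have h3 := mul_le_mul_of_nonneg_left (flA_le J σ) (mul_nonneg h0 hV)
  have hB : flB J σ = 3 * Real.exp (40 - (σ : ℝ)) := rfl
  have hB0 : flB 0 σ = 3 * Real.exp (40 - (σ : ℝ)) := rfl
  rw [hB] at h2
  rw [hB0] at h3
  rw [← hD, abs_le]
  constructor <;> linarith

/-- Failures in the window, with accumulated perturbation `κ (K+1)^n`. -/
def winA (N J : ℕ) (κ K : ℝ) (n i : ℕ) : ℝ := gG N J n i + κ * (K + 1) ^ n

/-- Failures in the window, with accumulated perturbation `κ (K+1)^n`. -/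
def winB (N J : ℕ) (κ K : ℝ) (n i : ℕ) : ℝ := gQ N J n i + κ * (K + 1) ^ n

lemma gridStep_le_one {N J : ℕ} (hN : 12 ≤ N) (hJ : 4 * N ≤ J) (n i : ℕ) :
    gridStep N J (2 * N) (gQ N J n) i ≤ 1 + 5 / N := by
  refine le_trans (gridStep_anti (by omega) (grid_nonneg n).2 (Nat.zero_le i)) ?_
  rw [gridStep, max_eq_right (Nat.zero_le _)]
  have h := headSum_le hN hJ n
  unfold headSum at h
  have hN' : (0 : ℝ) < N := by exact_mod_cast (by omega : 0 < N)
  rw [div_le_iff₀ (by positivity)]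
  push_cast
  rw [add_mul, one_mul, div_mul_eq_mul_div]
  have : (5 : ℝ) * (2 * N) / N = 10 := by field_simp; ring
  linarith

lemma win_step {lam M κ K : ℝ} {N J b n i : ℕ} {φ : ℕ → ℝ} (hlam : 1 ≤ lam) (hlam' : lam ≤ 2)
    (hM : (J + 1 : ℕ) / (N : ℝ) ≤ M) (hM1 : 1 ≤ M) (hK : 3 * M ≤ K) (hN : 0 < N)
    (hb : N ≤ b) (hi : b ≤ i) (hφ : ∀ j, 0 ≤ φ j) (hφM : ∀ j, φ j ≤ M) (hκ : 0 ≤ κ) :
    (lam * ∑ j ∈ Icc i J, (φ (j - N) + κ * (K + 1) ^ n)) / i +
        (lam - 1) * (φ (i - N) + κ * (K + 1) ^ n) ≤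
      gridStep N J b φ i + 2 * (lam - 1) * M ^ 2 + K * (κ * (K + 1) ^ n) := by
  obtain ⟨E, hE⟩ : ∃ E, E = κ * (K + 1) ^ n := ⟨_, rfl⟩
  rw [← hE]
  have hE0 : 0 ≤ E := hE ▸ mul_nonneg hκ (pow_nonneg (by linarith) n)
  have hi0 : (0 : ℝ) < i := by exact_mod_cast (by omega : 0 < i)
  rw [gridStep, max_eq_left hi, sum_add_distrib, sum_const, nsmul_eq_mul, Nat.card_Icc]
  obtain ⟨S, hS⟩ : ∃ S, S = ∑ j ∈ Icc i J, φ (j - N) := ⟨_, rfl⟩
  rw [← hS]
  have hcard : ((J + 1 - i : ℕ) : ℝ) / i ≤ M := by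
    refine le_trans (div_le_div₀ (Nat.cast_nonneg _) ?_ (by exact_mod_cast hN)
      (by exact_mod_cast (by omega : N ≤ i))) hM
    exact_mod_cast Nat.sub_le _ _
  have hS0 : 0 ≤ S := hS ▸ sum_nonneg fun j _ => hφ _
  have hSM : S / i ≤ M ^ 2 := by
    have h1 : S ≤ ((J + 1 - i : ℕ) : ℝ) * M := by
      rw [hS]
      exact (sum_le_card_nsmul _ _ M fun j _ => hφM _).trans_eq (by
        rw [Nat.card_Icc, nsmul_eq_mul])
    calc S / i ≤ ((J + 1 - i : ℕ) : ℝ) * M / i := div_le_div_of_nonneg_right h1 hi0.le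
      _ = ((J + 1 - i : ℕ) : ℝ) / i * M := by ring
      _ ≤ M * M := mul_le_mul_of_nonneg_right hcard (by linarith)
      _ = M ^ 2 := by ring
  have e : (lam * (S + ((J + 1 - i : ℕ) : ℝ) * E)) / i =
      S / i + (lam - 1) * (S / i) + lam * E * (((J + 1 - i : ℕ) : ℝ) / i) := by
    field_simp; ring
  rw [e]
  have h2 := mul_le_mul_of_nonneg_left hSM (by linarith : (0 : ℝ) ≤ lam - 1)
  have h3 := mul_le_mul_of_nonneg_left hcard (by positivity : (0 : ℝ) ≤ lam * E)
  have h4 := mul_le_mul_of_nonneg_left (hφM (i - N)) (by linarith : (0 : ℝ) ≤ lam - 1)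
  have hM2 : M ≤ M ^ 2 := by nlinarith
  have h5 := mul_le_mul_of_nonneg_left hM2 (by linarith : (0 : ℝ) ≤ lam - 1)
  have h6 : lam * E * M + (lam - 1) * E ≤ K * E := by
    have h61 : lam * M + (lam - 1) ≤ K := by nlinarith
    nlinarith [mul_le_mul_of_nonneg_right h61 hE0]
  linarith

lemma win_closed {lam w M κ K : ℝ} {Q0 : Finset ℕ} {N J : ℕ} (hlam : 1 ≤ lam) (hlam' : lam ≤ 2)
    (hr : RatioBound Q0 w lam) (hp : ∀ p ∈ Q0, Nat.Prime p) (hw : 1 < w)
    (hwp : ∀ p ∈ Q0, w < (p : ℝ)) (hN : 12 ≤ N) (hJ : 4 * N ≤ J)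
    (hM : (J + 1 : ℕ) / (N : ℝ) ≤ M) (hM1 : 1 ≤ M) (hK : 3 * M ≤ K)
    (hκ : 5 / N + 2 * (lam - 1) * M ^ 2 ≤ κ) :
    Closed Q0 w lam N 2 J (winA N J κ K) (winB N J κ K) :=
  have hκ0 : 0 ≤ κ := le_trans (add_nonneg (by positivity)
    (mul_nonneg (by linarith) (sq_nonneg M))) hκ
  have hK0 : 0 ≤ K := by linarith
  have hgrow : ∀ n : ℕ, κ + K * (κ * (K + 1) ^ n) ≤ κ * (K + 1) ^ (n + 1) := fun n => by
    have := mul_le_mul_of_nonneg_left (one_le_pow₀ (n := n) (by linarith : (1 : ℝ) ≤ K + 1)) hκ0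
    rw [pow_succ]
    nlinarith
  { ratio := hr
    lam_ge := hlam
    prime := hp
    one_lt := hw
    above := hwp
    N_pos := by omega
    beta_ge := le_rfl
    A_anti := fun n => (gG_anti (by omega) n).add_const _
    B_anti := fun n => (gQ_anti (by omega) n).add_const _
    A_nonneg := fun n i => add_nonneg ((grid_nonneg n).1 i)
      (mul_nonneg hκ0 (pow_nonneg (by linarith) n))
    B_nonneg := fun n i => add_nonneg ((grid_nonneg n).2 i)
      (mul_nonneg hκ0 (pow_nonneg (by linarith) n))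
    A_low := fun n i hi => by
      rw [winA, gG_eq_one n i hi]
      linarith [mul_nonneg hκ0 (pow_nonneg (by linarith : (0 : ℝ) ≤ K + 1) n)]
    lower := fun n i hi _ => by
      refine (win_step (b := 2 * N) hlam hlam' hM hM1 hK (by omega) (by omega) hi
        (grid_nonneg n).2 (fun j => (gQ_le (by omega) n j).trans hM) hκ0).trans ?_
      have h1 := gridStep_le_one hN hJ n i
      have h2 : 0 ≤ 5 / (N : ℝ) := by positivity
      have h3 : gridStep N J (2 * N) (gQ N J n) i ≤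
          min 1 (gridStep N J (2 * N) (gQ N J n) i) + 5 / N := by
        rcases le_total 1 (gridStep N J (2 * N) (gQ N J n) i) with h | h
        · rw [min_eq_left h]; linarith
        · rw [min_eq_right h]; linarith
      rw [winA, gG_succ, if_neg (by omega)]
      linarith [hgrow n]
    upper := fun n i hi _ => by
      refine (win_step (b := N) hlam hlam' hM hM1 hK (by omega) le_rfl (by omega)
        (grid_nonneg n).1 (fun j => (gG_le_one n j).trans hM1) hκ0).trans ?_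
      rw [winB, gQ_succ]
      linarith [hgrow n, show 0 ≤ 5 / (N : ℝ) from by positivity] }

/-- The sum of the gain at the top node. -/
lemma root_bound {lam ω : ℝ} {φ : ℕ → ℝ} (hanti : Antitone φ) (hφ : ∀ a, 0 ≤ φ a)
    (hlam : 1 ≤ lam) (hω : ω ≤ 1) {i A0 J : ℕ} (hi : 0 < i) (hA : i ≤ A0) (hAJ : A0 ≤ J) :
    ∑ a ∈ Icc i J, (φ a - if a < J then φ (a + 1) else 0) *
        (lam * (if A0 ≤ a then ω else 1) * (((a : ℝ) + 1) / i) - 1) ≤
      (lam * ∑ a ∈ Icc i J, φ a) / i + (lam - 1) * φ i -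
        (1 - ω) * (∑ a ∈ Icc A0 J, φ a) / i := by
  obtain ⟨d, hd⟩ : ∃ d : ℕ → ℝ, d = fun a => φ a - if a < J then φ (a + 1) else 0 := ⟨_, rfl⟩
  have hdd : ∀ a, φ a - (if a < J then φ (a + 1) else 0) = d a := fun a => by rw [hd]
  simp only [hdd]
  have hd0 : ∀ a, 0 ≤ d a := fun a => by
    rw [hd]
    dsimp only
    split_ifs
    · linarith [hanti (Nat.le_succ a)]
    · simpa using hφ a
  have l1 := abel_lin φ (le_trans hA hAJ)
  have l2 := abel_lin φ hAJ
  have l3 := abel_sum φ (le_trans hA hAJ)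
  simp only [hdd] at l1 l2 l3
  have e : ∀ a, d a * (lam * (if A0 ≤ a then ω else 1) * (((a : ℝ) + 1) / i) - 1) =
      lam / i * (d a * ((a : ℝ) + 1)) - d a -
        (1 - ω) * lam / i * (if A0 ≤ a then d a * ((a : ℝ) + 1) else 0) := by
    intro a; split_ifs <;> ring
  rw [sum_congr rfl fun a _ => e a, sum_sub_distrib, sum_sub_distrib, ← mul_sum, ← mul_sum,
    ← sum_filter]
  have hf : (Icc i J).filter (fun a => A0 ≤ a) = Icc A0 J := by
    ext a; simp only [mem_filter, mem_Icc]; omega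
  rw [hf, l1, l2, l3]
  have hi' : (0 : ℝ) < i := by exact_mod_cast hi
  have h1 : (∑ a ∈ Icc A0 J, φ a) ≤ lam * ((A0 : ℝ) * φ A0 + ∑ a ∈ Icc A0 J, φ a) := by
    have h2 : 0 ≤ (A0 : ℝ) * φ A0 := mul_nonneg (Nat.cast_nonneg _) (hφ A0)
    have h3 : 0 ≤ ∑ a ∈ Icc A0 J, φ a := sum_nonneg fun a _ => hφ a
    nlinarith
  have h4 := mul_le_mul_of_nonneg_left h1 (div_nonneg (by linarith : (0 : ℝ) ≤ 1 - ω) hi'.le)
  have e2 : lam / i * ((i : ℝ) * φ i + ∑ a ∈ Icc i J, φ a) - φ i =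
      (lam * ∑ a ∈ Icc i J, φ a) / i + (lam - 1) * φ i := by
    field_simp; ring
  have e3 : (1 - ω) / i * (∑ a ∈ Icc A0 J, φ a) = (1 - ω) * (∑ a ∈ Icc A0 J, φ a) / i := by ring
  have e4 : (1 - ω) / i * (lam * ((A0 : ℝ) * φ A0 + ∑ a ∈ Icc A0 J, φ a)) =
      (1 - ω) * lam / i * ((A0 : ℝ) * φ A0 + ∑ a ∈ Icc A0 J, φ a) := by ring
  linarith

end Vale.Agent.P013
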